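import Vale.Agent.P146.H941.TwoS
import Vale.Agent.P146.H816.SkT

/-!
R1, item (8): the sums over the ordered pairs of sites for a position system, in the objects of
`CDefS`.
-/

open MeasureTheory ProbabilityTheory

namespace Vale.Agent.P146.R1S

open Vale.Agent.P157.Lv Vale.Agent.P146.H425 Vale.Agent.P146.H325
  Vale.Agent.P146.H712 Vale.Agent.P146.R1 Vale.Agent.P146.R1C Vale.Agent.P146.H816 Matrix
open Vale.Agent.P146.H332 hiding Nf Gf

set_option linter.unusedSectionVars false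

variable {n : ℕ} {k x : ℝ} {S : CS n k x} {q : Par} {F : (Pair n → ℝ) → ℝ}
  {D : Pair n → (Pair n → ℝ) → ℝ} {B L : ℝ} {M δ lam : Fin n → Fin n → ℝ}

/-- the matrix at the time `s1` -/
noncomputable def A1 (S : CS n k x) (q : Par) (w : K4 (Pair n) → ℝ) : Matrix (Fin n) (Fin n) ℝ :=
  S.A q.s1 (P2 q w)

/-- the matrix at the time `s2` -/
noncomputable def A2 (S : CS n k x) (q : Par) (w : K4 (Pair n) → ℝ) : Matrix (Fin n) (Fin n) ℝ :=
  S.A q.s2 (P3 q w)

/-- the clean column at the time `s1`, with the entries at `b` and `b'` -/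
noncomputable def a1 (S : CS n k x) (q : Par) (b b' : Fin n) (w : K4 (Pair n) → ℝ) : Fin n → ℝ :=
  cl S q.s1 b b' (P2 q w)

/-- the clean column at the time `s2`, with the entries at `b` and `b'` -/
noncomputable def a2 (S : CS n k x) (q : Par) (b b' : Fin n) (w : K4 (Pair n) → ℝ) : Fin n → ℝ :=
  cl S q.s2 b b' (P3 q w)

lemma a1_eq (hq : q.Ok) (b b' i : Fin n) (w : K4 (Pair n) → ℝ) :
    a1 S q b b' w i = Av (lf (row b')) (fun w => A1 S q w i b) w :=
  (Av_lf_P2 hq (tA_eg S q.s1 i b) (row b') w).symm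

lemma a2_eq (hq : q.Ok) (b b' i : Fin n) (w : K4 (Pair n) → ℝ) :
    a2 S q b b' w i = Av (lf (row b')) (fun w => A2 S q w i b) w :=
  (Av_lf_P3 hq (tA_eg S q.s2 i b) (row b') w).symm

/-- the moments and the touches of a pair -/
def PrS (S : CS n k x) (q : Par) (F : (Pair n → ℝ) → ℝ) (M δ : Fin n → Fin n → ℝ) : Prop :=
  ∀ b b', b' ≠ b → Pr (ph q F b b') (fun w => H816.col (A1 S q w) b) (fun w => H816.col (A2 S q w) b)
    (fun w => H816.col (A1 S q w) b') (fun w => H816.col (A2 S q w) b') (a1 S q b b') (a2 S q b b')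
    (a1 S q b' b) (a2 S q b' b) (M b b') (δ b b')

/-- the law change for a pair -/
def LamS (S : CS n k x) (q : Par) (F : (Pair n → ℝ) → ℝ) (lam : Fin n → Fin n → ℝ) : Prop :=
  ∀ b b', b' ≠ b → ∀ U V X Y : (K4 (Pair n) → ℝ) → Fin n → ℝ,
    (U = (fun w => H816.col (A1 S q w) b) ∨ U = (fun w => H816.col (A2 S q w) b)) →
    (V = (fun w => H816.col (A1 S q w) b') ∨ V = (fun w => H816.col (A2 S q w) b')) →
    (X = (fun w => H816.col (A1 S q w) b) ∨ X = (fun w => H816.col (A2 S q w) b)) →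
    (Y = (fun w => H816.col (A1 S q w) b') ∨ Y = (fun w => H816.col (A2 S q w) b')) →
    |(∫ w, dens q F w * (H706.dp (U w) (V w) * H706.dp (X w) (Y w)) ∂(gI (K4 (Pair n)))) -
      ∫ w, ph q F b b' w * (H706.dp (U w) (V w) * H706.dp (X w) (Y w)) ∂(gI (K4 (Pair n)))| ≤
        lam b b'

/-- the structure of the pairs -/
abbrev ClS (S : CS n k x) (q : Par) (F : (Pair n → ℝ) → ℝ) (M δ lam : Fin n → Fin n → ℝ) : Prop :=
  Cl (dens q F) (A1 S q) (A2 S q) (fun b => lf (row b)) (fun b b' => pk (Equiv.swap b b'))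
    (ph q F) (a1 S q) (a2 S q) M δ lam

lemma eg_A1 (i j : Fin n) : EG fun w => A1 S q w i j := eg_P2 (tA_eg S q.s1 i j)

lemma eg_A2 (i j : Fin n) : EG fun w => A2 S q w i j := eg_P3 (tA_eg S q.s2 i j)

theorem cl_cs (h : C11 F D B L) (hx : 0 < q.x) (hP : PrS S q F M δ) (hL : LamS S q F lam) :
    ClS S q F M δ lam where
  ep := eg_dens h hx
  p0 w := by rw [dens_eq]; exact (Real.exp_pos _).le
  eA := eg_A1
  eD := eg_A2
  sA w := tA_T S _ _
  sD w := tA_T S _ _
  hT b b' hb := two_cs S q hb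
  hP := hP
  hφ b b' _ := by
    unfold ph
    rw [← lf_union]
    exact ind_Av _ _
  l1 b b' hb := hL b b' hb _ _ _ _ (Or.inl rfl) (Or.inr rfl) (Or.inl rfl) (Or.inr rfl)
  l2 b b' hb := hL b b' hb _ _ _ _ (Or.inl rfl) (Or.inl rfl) (Or.inr rfl) (Or.inr rfl)
  l3 b b' hb := hL b b' hb _ _ _ _ (Or.inl rfl) (Or.inr rfl) (Or.inr rfl) (Or.inl rfl)

lemma eg_Nd (b b' i j : Fin n) : EG fun w => Nd S q b b' w i j :=
  eg_Av _ ((eg_Ca S q b b' i).mul (eg_Cd S q b b' j))

lemma eg_Sa (b b' i j : Fin n) : EG fun w => Sa S q b b' w i j :=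
  eg_Av _ ((eg_Ca S q b b' i).mul (eg_Ca S q b b' j))

lemma eg_Sd (b b' i j : Fin n) : EG fun w => Sd S q b b' w i j :=
  eg_Av _ ((eg_Cd S q b b' i).mul (eg_Cd S q b b' j))

lemma eg_Gb (b b' : Fin n) : EG fun w => Gb S q b b' w := by
  unfold Gb ip fr
  exact (EG.sum _ fun i _ => EG.sum _ fun j _ => (eg_Sa b b' i j).mul (eg_Sd b b' i j)).sub
    (EG.sum _ fun i _ => EG.sum _ fun j _ => (eg_Nd b b' i j).pow 2)

lemma eg_frNd (b b' : Fin n) : EG fun w => fr (Nd S q b b' w) := by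
  unfold fr
  exact EG.sum _ fun i _ => EG.sum _ fun j _ => (eg_Nd b b' i j).pow 2

lemma eg_Yd (b b' : Fin n) : EG fun w => fr (Nd S q b b' w - (Nd S q b b' w)ᵀ) := by
  unfold fr
  exact EG.sum _ fun i _ => EG.sum _ fun j _ => ((eg_Nd b b' i j).sub (eg_Nd b b' j i)).pow 2

lemma Nd_ind (b b' : Fin n) (w w' : K4 (Pair n) → ℝ) :
    Nd S q b b' (sw (lf (row b ∪ row b')) w w') = Nd S q b b' w := by
  funext i j
  exact ind_Av _ _ _ _

lemma Sa_ind (b b' : Fin n) (w w' : K4 (Pair n) → ℝ) :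
    Sa S q b b' (sw (lf (row b ∪ row b')) w w') = Sa S q b b' w := by
  funext i j
  exact ind_Av _ _ _ _

lemma Sd_ind (b b' : Fin n) (w w' : K4 (Pair n) → ℝ) :
    Sd S q b b' (sw (lf (row b ∪ row b')) w w') = Sd S q b b' w := by
  funext i j
  exact ind_Av _ _ _ _

lemma ind_Gb (b b' : Fin n) : Ind (lf (row b ∪ row b')) fun w => Gb S q b b' w := by
  intro w w'
  simp only [Gb, Nd_ind, Sa_ind, Sd_ind]

lemma ind_frNd (b b' : Fin n) : Ind (lf (row b ∪ row b')) fun w => fr (Nd S q b b' w) := by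
  intro w w'
  simp only [Nd_ind]

lemma ind_Yd (b b' : Fin n) :
    Ind (lf (row b ∪ row b')) fun w => fr (Nd S q b b' w - (Nd S q b b' w)ᵀ) := by
  intro w w'
  simp only [Nd_ind]

/-- the diagonal term -/
noncomputable def Dg (S : CS n k x) (q : Par) (w : K4 (Pair n) → ℝ) : ℝ :=
  ∑ b, vn (H816.col (A1 S q w) b) * vn (H816.col (A2 S q w) b)

/-- **(T1)** -/
theorem ClS.t1 (hc : ClS S q F M δ lam) (h : C11 F D B L) (hx : 0 < q.x) :
    ∑ b, ∑ b' ∈ Finset.univ.erase b, Ew q F (fun w => Gb S q b b' w) ≤ Ew q F (Dg S q) +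
      ∑ b, ∑ b' ∈ Finset.univ.erase b, (2 * lam b b' + 8 * (δ b b' * √(M b b'))) := by
  have h1 := Cl.s1 hc
  refine le_trans (le_of_eq ?_) h1
  refine Finset.sum_congr rfl fun b _ => Finset.sum_congr rfl fun b' _ => ?_
  rw [← int_ph h hx (eg_Gb b b') (ind_Gb b b')]
  refine integral_congr_ae (Filter.Eventually.of_forall fun w => ?_)
  simp only
  rw [Gb_eq]
  rfl

/-- **(T2)** -/
theorem ClS.t2 (hc : ClS S q F M δ lam) (h : C11 F D B L) (hx : 0 < q.x) :
    Ew q F (fun w => fr (A1 S q w * A2 S q w - A2 S q w * A1 S q w)) ≤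
      (∑ b, ∑ b' ∈ Finset.univ.erase b,
        Ew q F (fun w => fr (Nd S q b b' w - (Nd S q b b' w)ᵀ))) +
      2 * (∑ b, ∑ b' ∈ Finset.univ.erase b, Ew q F (fun w => Gb S q b b' w)) +
      ∑ b, ∑ b' ∈ Finset.univ.erase b, (4 * lam b b' + 16 * (δ b b' * √(M b b'))) := by
  have h1 := Cl.s2 hc
  refine h1.trans (le_of_eq ?_)
  congr 1
  congr 1
  · refine Finset.sum_congr rfl fun b _ => Finset.sum_congr rfl fun b' _ => ?_
    rw [← int_ph h hx (eg_Yd b b') (ind_Yd b b')]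
    refine integral_congr_ae (Filter.Eventually.of_forall fun w => ?_)
    simp only
    rw [Yb_eq]
    rfl
  · congr 1
    refine Finset.sum_congr rfl fun b _ => Finset.sum_congr rfl fun b' _ => ?_
    rw [← int_ph h hx (eg_Gb b b') (ind_Gb b b')]
    refine integral_congr_ae (Filter.Eventually.of_forall fun w => ?_)
    simp only
    rw [Gb_eq]
    rfl

/-- **(T3)** -/
theorem ClS.t3 (hc : ClS S q F M δ lam) (h : C11 F D B L) (hx : 0 < q.x) :
    Ew q F (fun w => fr (A1 S q w * A2 S q w)) ≤ Ew q F (Dg S q) +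
      (∑ b, ∑ b' ∈ Finset.univ.erase b, Ew q F (fun w => fr (Nd S q b b' w))) +
      ∑ b, ∑ b' ∈ Finset.univ.erase b, (lam b b' + 4 * (δ b b' * √(M b b'))) := by
  have h1 := Cl.s3 hc
  refine h1.trans (le_of_eq ?_)
  congr 1
  congr 1
  refine Finset.sum_congr rfl fun b _ => Finset.sum_congr rfl fun b' _ => ?_
  rw [← int_ph h hx (eg_frNd b b') (ind_frNd b b')]
  refine integral_congr_ae (Filter.Eventually.of_forall fun w => ?_)
  simp only
  rw [Xb_eq]
  rfl

/-! ### the normalized form -/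

section norm

variable {m6 dl ls : ℝ}

/-- **(T1)**, normalized -/
theorem ClS.n1 (hc : ClS S q F M δ lam) (hN : Nb q F M δ lam m6 dl ls) (h : C11 F D B L)
    (hx : 0 < q.x) :
    ∑ b, ∑ b' ∈ Finset.univ.erase b, En q F (fun w => Gb S q b b' w) ≤ En q F (Dg S q) +
      (2 * (n ^ 2 * ls) + 8 * (n * √(m6 * dl))) := by
  have hE := Ew_one_pos (q := q) h hx
  rw [En_sum, div_le_iff₀ hE, add_mul]
  unfold En
  rw [div_mul_cancel₀ _ hE.ne']
  exact (hc.t1 h hx).trans (add_le_add le_rfl (hN.err h hx (by norm_num) (by norm_num)))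

/-- **(T2)**, normalized -/
theorem ClS.n2 (hc : ClS S q F M δ lam) (hN : Nb q F M δ lam m6 dl ls) (h : C11 F D B L)
    (hx : 0 < q.x) :
    En q F (fun w => fr (A1 S q w * A2 S q w - A2 S q w * A1 S q w)) ≤
      (∑ b, ∑ b' ∈ Finset.univ.erase b,
        En q F (fun w => fr (Nd S q b b' w - (Nd S q b b' w)ᵀ))) +
      2 * (∑ b, ∑ b' ∈ Finset.univ.erase b, En q F (fun w => Gb S q b b' w)) +
      (4 * (n ^ 2 * ls) + 16 * (n * √(m6 * dl))) := by
  have hE := Ew_one_pos (q := q) h hx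
  rw [En_sum, En_sum]
  have h1 := (hc.t2 h hx).trans (add_le_add le_rfl (hN.err h hx (by norm_num) (by norm_num)))
  unfold En
  rw [div_le_iff₀ hE]
  refine h1.trans (le_of_eq ?_)
  field_simp

/-- **(T3)**, normalized -/
theorem ClS.n3 (hc : ClS S q F M δ lam) (hN : Nb q F M δ lam m6 dl ls) (h : C11 F D B L)
    (hx : 0 < q.x) :
    En q F (fun w => fr (A1 S q w * A2 S q w)) ≤ En q F (Dg S q) +
      (∑ b, ∑ b' ∈ Finset.univ.erase b, En q F (fun w => fr (Nd S q b b' w))) +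
      (1 * (n ^ 2 * ls) + 4 * (n * √(m6 * dl))) := by
  have hE := Ew_one_pos (q := q) h hx
  rw [En_sum]
  have h1 := hN.err h hx (c := 1) (c' := 4) (by norm_num) (by norm_num)
  simp only [one_mul] at h1
  have h2 := (hc.t3 h hx).trans (add_le_add le_rfl h1)
  unfold En
  rw [div_le_iff₀ hE]
  refine h2.trans (le_of_eq ?_)
  field_simp

end norm

end Vale.Agent.P146.R1S
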