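import Vale.Agent.P146.H645.CSys

/-!
Plan R1: for a position system the derivatives of the gradient of the value function form a
symmetric positive semidefinite matrix; hence the derivatives `DA` are bounded by `k`.
-/

open MeasureTheory ProbabilityTheory

namespace Vale.Agent.P146.R1S

open Vale.Agent.P157.Lv Vale.Agent.P146.H425 Vale.Agent.P146.H325 Vale.Agent.P146.H332
  Vale.Agent.P146.H712 Vale.Agent.P146.H816 Vale.Agent.P146.R1 Vale.Agent.P146.R1C Matrix

set_option linter.unusedSectionVars false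

section gen

variable {κ : Type} [Fintype κ] [DecidableEq κ] {G : (κ → ℝ) → ℝ} {D : κ → (κ → ℝ) → ℝ}
  {Q : κ → κ → (κ → ℝ) → ℝ}

/-- second derivatives are symmetric -/
lemma sym_gen (hF : ∀ y, HasFDerivAt G (H785.lf fun e => D e y) y)
    (hD : ∀ e y, HasFDerivAt (D e) (H785.lf fun f => Q e f y) y) (e f : κ) (y : κ → ℝ) :
    Q e f y = Q f e y := by
  have h1 : HasFDerivAt (fun y => H785.lf fun e => D e y)
      (∑ e, (H785.lf fun f => Q e f y).smulRight
        (ContinuousLinearMap.proj e : (κ → ℝ) →L[ℝ] ℝ)) y := by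
    unfold H785.lf
    refine HasFDerivAt.fun_sum fun e _ => ?_
    exact HasFDerivAt.smul_const (hD e y) (ContinuousLinearMap.proj e : (κ → ℝ) →L[ℝ] ℝ)
  have h2 := second_derivative_symmetric hF h1 (Pi.single f 1) (Pi.single e 1)
  simp only [_root_.sum_apply, ContinuousLinearMap.smulRight_apply, _root_.smul_apply,
    H785.lf_apply, ContinuousLinearMap.proj_apply, smul_eq_mul, Pi.single_apply, mul_ite, mul_one,
    mul_zero, Finset.sum_ite_eq', Finset.mem_univ, if_true] at h2
  exact h2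

/-- the Hessian of a convex function is nonnegative -/
lemma psd_gen (hc : Cv G) (hF : ∀ y, HasFDerivAt G (H785.lf fun e => D e y) y)
    (hD : ∀ e y, HasFDerivAt (D e) (H785.lf fun f => Q e f y) y) (z v : κ → ℝ) :
    0 ≤ ∑ e, ∑ f, Q e f z * v e * v f := by
  set g : ℝ → ℝ := fun r => G (z + r • v) with hg
  set g1 : ℝ → ℝ := fun r => ∑ e, D e (z + r • v) * v e with hg1
  have d0 : ∀ r, HasDerivAt g (g1 r) r := fun r => fd_dir hF z v r
  have d1 : HasDerivAt g1 (∑ e, ∑ f, Q e f z * v e * v f) 0 := by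
    have h1 : ∀ e ∈ (Finset.univ : Finset κ), HasDerivAt (fun r : ℝ => D e (z + r • v) * v e)
        ((∑ i, Q e i (z + (0 : ℝ) • v) * v i) * v e) 0 := fun e _ =>
      (fd_dir (hD e) z v 0).mul_const (v e)
    refine (HasDerivAt.fun_sum h1).congr_deriv ?_
    refine Finset.sum_congr rfl fun e _ => ?_
    rw [Finset.sum_mul]
    exact Finset.sum_congr rfl fun i _ => by rw [zero_smul, add_zero]; ring
  have hcv : ConvexOn ℝ Set.univ g := by
    refine ⟨convex_univ, fun r _ r' _ a b ha hb hab => ?_⟩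
    have h1 := hc a b ha hb hab (z + r • v) (z + r' • v)
    have e : a • (z + r • v) + b • (z + r' • v) = z + (a • r + b • r') • v := by
      have e2 : a • z + b • z = z := by rw [← add_smul, hab, one_smul]
      rw [smul_add, smul_add, smul_smul, smul_smul, add_smul, smul_eq_mul, smul_eq_mul]
      nth_rewrite 3 [← e2]
      abel
    rw [e] at h1
    simpa only [hg, smul_eq_mul] using h1
  have hmono : Monotone g1 := by
    have h2 : MonotoneOn (deriv g) Set.univ :=
      hcv.monotoneOn_deriv fun r _ => (d0 r).differentiableAt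
    intro r r' hr
    have := h2 (Set.mem_univ r) (Set.mem_univ r') hr
    rwa [(d0 r).deriv, (d0 r').deriv] at this
  have h3 := hmono.deriv_nonneg (x := 0)
  rwa [d1.deriv] at h3

/-- entries of a symmetric nonnegative form -/
lemma entry_gen {M : κ → κ → ℝ} (hs : ∀ e f, M e f = M f e)
    (h0 : ∀ v : κ → ℝ, 0 ≤ ∑ e, ∑ f, M e f * v e * v f) {C : ℝ} (hC : ∀ e, M e e ≤ C)
    (e f : κ) : |M e f| ≤ C := by
  by_cases hef : e = f
  · subst hef
    have h1 := h0 (Pi.single e 1)
    simp only [Pi.single_apply, mul_ite, mul_one, mul_zero,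
      Finset.sum_ite_eq', Finset.mem_univ, if_true] at h1
    rw [abs_of_nonneg h1]
    exact hC e
  · have key : ∀ t : ℝ, 0 ≤ M e e + 2 * t * M e f + t ^ 2 * M f f := by
      intro t
      have h1 := h0 (Pi.single e 1 + t • Pi.single f 1)
      have h2 : ∑ a, ∑ b, M a b * (Pi.single e (1 : ℝ) + t • Pi.single f (1 : ℝ) : κ → ℝ) a *
          (Pi.single e (1 : ℝ) + t • Pi.single f (1 : ℝ) : κ → ℝ) b =
          M e e + 2 * t * M e f + t ^ 2 * M f f := by
        simp only [Pi.add_apply, Pi.smul_apply, smul_eq_mul, mul_add, add_mul,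
          Finset.sum_add_distrib, Pi.single_apply, mul_ite, mul_one, mul_zero, ite_mul, zero_mul,
          Finset.sum_ite_eq', Finset.mem_univ, if_true]
        rw [hs f e]
        ring
      rwa [h2] at h1
    have k1 := key 1
    have k2 := key (-1)
    have c1 := hC e
    have c2 := hC f
    rw [abs_le]
    constructor <;> linarith

end gen

variable {n : ℕ} {k x : ℝ} (S : CS n k x)

namespace CS

lemma fd_uu (s : ℝ) (z : Pair n → ℝ) :
    HasFDerivAt (uu x s S.F) (H785.lf fun e => k * S.A s z e.1.1 e.1.2) z := by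
  have h := H785.C11.hasFDerivAt (c11_uu S.c11 S.x0 s) z
  have e : (fun e => dd x s S.F S.D e z) = fun e : Pair n => k * S.A s z e.1.1 e.1.2 := by
    funext e
    exact S.dd_eq s e z
  rwa [e] at h

lemma cv_uu (s : ℝ) : Cv (uu x s S.F) := by
  intro a b ha hb hab y0 y1
  have e : ∀ y, uu x s S.F y = W x 1 (fun w => S.F (y + √(1 - s) • w)) 0 := fun y => by
    unfold uu W
    simp
  rw [e, e, e]
  have h0 := S.c11.shift (a • y0 + b • y1) (√(1 - s))
  have h1 := S.c11.shift y0 (√(1 - s))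
  have h2 := S.c11.shift y1 (√(1 - s))
  have hx := S.x0
  have h3 := layer (x0 := x) (x1 := x) h0 h1.lip h1.B0 h2.lip h2.B0 hx hx ha hb hab
    (fun w0 w1 => by
      have h4 := S.cv a b ha hb hab (y0 + √(1 - s) • w0) (y1 + √(1 - s) • w1)
      refine le_trans (le_of_eq ?_) h4
      congr 1
      funext e
      simp only [Pi.add_apply, Pi.smul_apply, smul_eq_mul]
      ring) 0 0
  have h5 : a * x + b * x = x := by rw [← add_mul, hab, one_mul]
  rw [h5] at h3
  simpa using h3

lemma fd_kA (s : ℝ) (e : Pair n) (z : Pair n → ℝ) :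
    HasFDerivAt (fun z => k * S.A s z e.1.1 e.1.2)
      (H785.lf fun f => k * S.DA s f z e.1.1 e.1.2) z := by
  refine ((S.fd_A s e.1.1 e.1.2 z).const_mul k).congr_fderiv ?_
  ext w
  simp only [_root_.smul_apply, H785.lf_apply, smul_eq_mul, Finset.mul_sum]
  exact Finset.sum_congr rfl fun f _ => by ring

/-- **The derivatives are symmetric.** -/
theorem DA_symm (s : ℝ) (e f : Pair n) (z : Pair n → ℝ) :
    S.DA s f z e.1.1 e.1.2 = S.DA s e z f.1.1 f.1.2 := by
  have h := sym_gen (G := uu x s S.F) (D := fun e z => k * S.A s z e.1.1 e.1.2)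
    (Q := fun e f z => k * S.DA s f z e.1.1 e.1.2) (fun y => S.fd_uu s y)
    (fun e y => S.fd_kA s e y) e f z
  exact mul_left_cancel₀ S.k0.ne' h

/-- **The derivatives are positive semidefinite.** -/
theorem DA_psd (s : ℝ) (z v : Pair n → ℝ) :
    0 ≤ ∑ e : Pair n, ∑ f : Pair n, S.DA s e z f.1.1 f.1.2 * v e * v f := by
  have h := psd_gen (G := uu x s S.F) (D := fun e z => k * S.A s z e.1.1 e.1.2)
    (Q := fun e f z => k * S.DA s f z e.1.1 e.1.2) (S.cv_uu s) (fun y => S.fd_uu s y)
    (fun e y => S.fd_kA s e y) z v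
  have e1 : ∑ e : Pair n, ∑ f : Pair n, k * S.DA s f z e.1.1 e.1.2 * v e * v f =
      k * ∑ e : Pair n, ∑ f : Pair n, S.DA s e z f.1.1 f.1.2 * v e * v f := by
    rw [Finset.mul_sum]
    refine Finset.sum_congr rfl fun e _ => ?_
    rw [Finset.mul_sum]
    exact Finset.sum_congr rfl fun f _ => by rw [S.DA_symm s e f z]; ring
  rw [e1] at h
  exact nonneg_of_mul_nonneg_right h S.k0

lemma DA_diag_le {s : ℝ} (hs : 0 < s) (e : Pair n) (z : Pair n → ℝ) :
    S.DA s e z e.1.1 e.1.2 ≤ k := by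
  have he : e ∈ row e.1.2 := mem_row.2 (Or.inr rfl)
  have h1 := S.DA_row hs he z e.1.1
  have h2 : oth e.1.2 e = e.1.1 := by
    unfold oth
    rw [if_neg (ne_of_lt e.2)]
  rw [h2] at h1
  rw [h1]
  have h3 := S.H_le hs e.1.2 z (Pi.single e.1.1 1)
  have h4 : ∀ M : Fin n → Fin n → ℝ, qf M (Pi.single e.1.1 1) = M e.1.1 e.1.1 := by
    intro M
    unfold qf
    simp only [Pi.single_apply, ite_mul, one_mul, zero_mul, mul_ite, mul_one, mul_zero,
      Finset.sum_ite_eq', Finset.mem_univ, if_true]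
  rw [h4, h4, S.A_self] at h3
  calc k * S.H s e.1.2 z e.1.1 e.1.1 ≤ k * 1 := mul_le_mul_of_nonneg_left h3 S.k0.le
    _ = k := mul_one k

/-- **The derivatives are bounded by `k`.** -/
theorem abs_DA {s : ℝ} (hs : 0 < s) (e : Pair n) (z : Pair n → ℝ) (i j : Fin n) :
    |S.DA s e z i j| ≤ k := by
  have key : ∀ e f : Pair n, |S.DA s e z f.1.1 f.1.2| ≤ k := fun e f =>
    entry_gen (M := fun e f : Pair n => S.DA s e z f.1.1 f.1.2)
      (fun e f => S.DA_symm s f e z) (fun v => S.DA_psd s z v)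
      (fun e => S.DA_diag_le hs e z) e f
  rcases lt_trichotomy i j with h | h | h
  · exact key e ⟨(i, j), h⟩
  · subst h
    rw [S.DA_self, abs_zero]
    exact S.k0.le
  · rw [S.DA_comm]
    exact key e ⟨(j, i), h⟩

lemma DA_sq_le {s : ℝ} (hs : 0 < s) (e : Pair n) (z : Pair n → ℝ) (i j : Fin n) :
    S.DA s e z i j ^ 2 ≤ k ^ 2 := by
  rw [← sq_abs]
  exact pow_le_pow_left₀ (abs_nonneg _) (S.abs_DA hs e z i j) 2

end CS

end Vale.Agent.P146.R1S
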