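import Vale.Agent.P146.H941.R6Alg

set_option linter.all false

/-!
R6, the end: the operator bound `tr (Y C D C) ≤ |D|_F tr (Y C C)` and the scalar algebra of the
crossing in one law.
-/

open MeasureTheory Matrix

namespace Vale.Agent.P146.H941

variable {m : Type} [Fintype m] [DecidableEq m]

/-- The Frobenius norm. -/
noncomputable def fro (D : Matrix m m ℝ) : ℝ := √(∑ i, ∑ j, D i j ^ 2)

theorem fro_nonneg (D : Matrix m m ℝ) : 0 ≤ fro D := Real.sqrt_nonneg _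

/-- `v' D v ≤ |D|_F |v|²`. -/
theorem quad_le_fro (D : Matrix m m ℝ) (v : m → ℝ) :
    ∑ i, ∑ j, v i * D i j * v j ≤ fro D * ∑ i, v i ^ 2 := by
  have h1 : ∑ i, ∑ j, v i * D i j * v j = ∑ p : m × m, D p.1 p.2 * (v p.1 * v p.2) := by
    rw [Fintype.sum_prod_type]
    exact Finset.sum_congr rfl fun i _ => Finset.sum_congr rfl fun j _ => by ring
  have h2 := Finset.sum_mul_sq_le_sq_mul_sq (Finset.univ : Finset (m × m))
    (fun p => D p.1 p.2) (fun p => v p.1 * v p.2)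
  have h3 : ∑ p : m × m, D p.1 p.2 ^ 2 = fro D ^ 2 := by
    have h0 : (0 : ℝ) ≤ ∑ i, ∑ j, D i j ^ 2 :=
      Finset.sum_nonneg fun i _ => Finset.sum_nonneg fun j _ => sq_nonneg (D i j)
    unfold fro
    rw [Real.sq_sqrt h0, Fintype.sum_prod_type]
  have h4 : ∑ p : m × m, (v p.1 * v p.2) ^ 2 = (∑ i, v i ^ 2) ^ 2 := by
    rw [Fintype.sum_prod_type, sq (∑ i, v i ^ 2), Finset.sum_mul_sum]
    exact Finset.sum_congr rfl fun i _ => Finset.sum_congr rfl fun j _ => by ring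
  rw [h3, h4, ← mul_pow] at h2
  have h5 : 0 ≤ fro D * ∑ i, v i ^ 2 :=
    mul_nonneg (fro_nonneg D) (Finset.sum_nonneg fun _ _ => sq_nonneg _)
  rw [h1]
  exact le_of_sq_le_sq' h2 h5
where
  le_of_sq_le_sq' {a b : ℝ} (h : a ^ 2 ≤ b ^ 2) (hb : 0 ≤ b) : a ≤ b := by
    by_contra hh
    have h1 := not_le.1 hh
    nlinarith

/-- **`tr (Y C D C) ≤ |D|_F tr (Y C C)`** for psd `Y`, symmetric `C`, any `D`. -/
theorem tr_op_le {Y C : Matrix m m ℝ} (D : Matrix m m ℝ) (hY : Y.PosSemidef)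
    (hC : Cᵀ = C) : (Y * (C * D * C)).trace ≤ fro D * (Y * (C * C)).trace := by
  obtain ⟨R, hR⟩ := psd_sq hY
  rw [Matrix.conjTranspose_eq_transpose_of_trivial] at hR
  obtain ⟨E, hE⟩ : ∃ E, E = R * C := ⟨_, rfl⟩
  have e1 : (Y * (C * D * C)).trace = (E * D * Eᵀ).trace := by
    rw [hR, Matrix.mul_assoc Rᵀ R, Matrix.trace_mul_comm, hE, Matrix.transpose_mul, hC]
    simp only [Matrix.mul_assoc]
  have e2 : (Y * (C * C)).trace = (E * Eᵀ).trace := by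
    rw [hR, Matrix.mul_assoc Rᵀ R, Matrix.trace_mul_comm, hE, Matrix.transpose_mul, hC]
    simp only [Matrix.mul_assoc]
  rw [e1, e2]
  have e3 : (E * D * Eᵀ).trace = ∑ a, ∑ i, ∑ j, E a i * D i j * E a j := by
    simp only [Matrix.trace, Matrix.diag_apply, Matrix.mul_apply, Matrix.transpose_apply,
      Finset.sum_mul]
    exact Finset.sum_congr rfl fun a _ => Finset.sum_comm
  have e4 : (E * Eᵀ).trace = ∑ a, ∑ i, E a i ^ 2 := by
    simp only [Matrix.trace, Matrix.diag_apply, Matrix.mul_apply, Matrix.transpose_apply, sq]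
  rw [e3, e4, Finset.mul_sum]
  exact Finset.sum_le_sum fun a _ => quad_le_fro D (fun i => E a i)

/-- The lower half of the end: F0 + F1 + F2 give `K3 ≥ A3 / 10` if `K3 ≤ 6/10 A3`. -/
theorem end_low {w A3 J3 K3 NL e : ℝ} (hw : 0 < w) (hA : 0 < A3) (hK : 0 ≤ K3)
    (hJ : J3 ^ 2 ≤ A3 * K3) (h1 : w * (A3 - 2 * J3 + K3) ≤ NL + e * (w * A3))
    (h2 : 2 * NL ≤ w * (A3 - K3) + e * (w * A3)) (he : e ≤ 1 / 1000) (hK6 : K3 ≤ 6 / 10 * A3) :
    A3 / 10 ≤ K3 := by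
  obtain ⟨a, ha⟩ : ∃ a, a = √A3 := ⟨_, rfl⟩
  obtain ⟨k, hk⟩ : ∃ k, k = √K3 := ⟨_, rfl⟩
  have ha0 : 0 < a := by rw [ha]; exact Real.sqrt_pos.2 hA
  have hk0 : 0 ≤ k := by rw [hk]; exact Real.sqrt_nonneg _
  have ha2 : A3 = a ^ 2 := by rw [ha, Real.sq_sqrt hA.le]
  have hk2 : K3 = k ^ 2 := by rw [hk, Real.sq_sqrt hK]
  have hJ2 : J3 ≤ a * k := by
    by_contra h
    have h3 := not_le.1 h
    have h4 : 0 ≤ a * k := by positivity
    rw [ha2, hk2] at hJ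
    nlinarith
  have h5 : w * (A3 + 3 * K3 - 4 * J3) ≤ 3 * e * (w * A3) := by nlinarith
  have h6 : A3 + 3 * K3 - 4 * J3 ≤ 3 * e * A3 := by
    have h7 : w * (A3 + 3 * K3 - 4 * J3) ≤ w * (3 * e * A3) := by linarith
    exact le_of_mul_le_mul_left h7 hw
  have h8 : a ^ 2 + 3 * k ^ 2 - 4 * (a * k) ≤ 3 / 1000 * a ^ 2 := by
    rw [ha2, hk2] at h6
    nlinarith [sq_nonneg a]
  have h9 : k ≤ 78 / 100 * a := by
    by_contra h
    have h10 := not_le.1 h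
    rw [ha2, hk2] at hK6
    nlinarith
  -- (a - k) (a - 3 k) ≤ 3/1000 a²
  have h11 : (a - k) * (a - 3 * k) ≤ 3 / 1000 * a ^ 2 := by nlinarith
  have h12 : 22 / 100 * a ≤ a - k := by linarith
  have h13 : a - 3 * k ≤ 3 / 220 * a := by
    by_contra h
    have h14 := not_le.1 h
    have h15 : 22 / 100 * a * (3 / 220 * a) < (a - k) * (a - 3 * k) := by
      have p1 : 0 < 22 / 100 * a := by positivity
      have p2 : 0 < 3 / 220 * a := by positivity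
      nlinarith
    nlinarith
  rw [ha2, hk2]
  nlinarith

/-- The upper half of the end: F0 + F1 and a small nonlinear part exclude `K3 ≤ 6/10 A3`. -/
theorem end_up {w A3 J3 K3 NL e : ℝ} (hw : 0 < w) (hA : 0 < A3) (hK : 0 ≤ K3)
    (hJ : J3 ^ 2 ≤ A3 * K3) (h1 : w * (A3 - 2 * J3 + K3) ≤ NL + e * (w * A3))
    (h3 : NL ≤ e * (w * A3)) (he : e ≤ 1 / 100) : 6 / 10 * A3 < K3 := by
  by_contra hcon
  have hK6 := not_lt.1 hcon
  obtain ⟨a, ha⟩ : ∃ a, a = √A3 := ⟨_, rfl⟩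
  obtain ⟨k, hk⟩ : ∃ k, k = √K3 := ⟨_, rfl⟩
  have ha0 : 0 < a := by rw [ha]; exact Real.sqrt_pos.2 hA
  have hk0 : 0 ≤ k := by rw [hk]; exact Real.sqrt_nonneg _
  have ha2 : A3 = a ^ 2 := by rw [ha, Real.sq_sqrt hA.le]
  have hk2 : K3 = k ^ 2 := by rw [hk, Real.sq_sqrt hK]
  have hJ2 : J3 ≤ a * k := by
    by_contra h
    have h4 := not_le.1 h
    have h5 : 0 ≤ a * k := by positivity
    rw [ha2, hk2] at hJ
    nlinarith
  have h6 : A3 - 2 * J3 + K3 ≤ 2 * e * A3 := by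
    have h7 : w * (A3 - 2 * J3 + K3) ≤ w * (2 * e * A3) := by linarith
    exact le_of_mul_le_mul_left h7 hw
  have h9 : k ≤ 78 / 100 * a := by
    by_contra h
    have h10 := not_le.1 h
    rw [ha2, hk2] at hK6
    nlinarith
  have h8 : (a - k) ^ 2 ≤ 2 / 100 * a ^ 2 := by
    rw [ha2, hk2] at h6
    nlinarith [sq_nonneg a]
  have h12 : 22 / 100 * a ≤ a - k := by linarith
  nlinarith

/-- **The end of R6 in one law**: `q = E^W (R_w / r)²`, `K3² ≤ q A3²` (operator bound), `q ≤ 36/100`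
(crossing), F0 + F1, F2: then `q ≥ 1/100`, and the nonlinear part is not small. -/
theorem r6_end {w A3 J3 K3 NL e q : ℝ} (hw : 0 < w) (hA : 0 < A3) (hK : 0 ≤ K3)
    (hJ : J3 ^ 2 ≤ A3 * K3) (hq : K3 ^ 2 ≤ q * A3 ^ 2) (hq1 : q ≤ 36 / 100)
    (h1 : w * (A3 - 2 * J3 + K3) ≤ NL + e * (w * A3))
    (h2 : 2 * NL ≤ w * (A3 - K3) + e * (w * A3)) (he : e ≤ 1 / 1000) :
    1 / 100 ≤ q ∧ ¬ NL ≤ e * (w * A3) := by
  have hK6 : K3 ≤ 6 / 10 * A3 := by
    by_contra h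
    have h3 := not_le.1 h
    have h4 : q * A3 ^ 2 ≤ 36 / 100 * A3 ^ 2 := mul_le_mul_of_nonneg_right hq1 (sq_nonneg _)
    nlinarith
  refine ⟨?_, fun h3 => ?_⟩
  · have h4 := end_low hw hA hK hJ h1 h2 he hK6
    have h5 : (A3 / 10) ^ 2 ≤ K3 ^ 2 := pow_le_pow_left₀ (by positivity) h4 2
    have h6 : 1 / 100 * A3 ^ 2 ≤ q * A3 ^ 2 := by nlinarith
    exact le_of_mul_le_mul_right h6 (by positivity)
  · have h4 := end_up hw hA hK hJ h1 h3 (by linarith)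
    linarith

end Vale.Agent.P146.H941
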