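import Vale.Agent.P146.H191.F1Sum
import Vale.Agent.P146.H941.R6End

/-!
Plan R2, row R6: the sum over the rows of (F1) in matrix form, for `L = l C`, and the subtraction
of the row (F0).
-/

open MeasureTheory ProbabilityTheory Finset Matrix

namespace Vale.Agent.P146.H941

open Vale.Agent.P157.Lv Vale.Agent.P146.H425 Vale.Agent.P146.H325 Vale.Agent.P146.H332
  Vale.Agent.P146.H712 Vale.Agent.P146.R1 Vale.Agent.P146.R1C Vale.Agent.P146.H706
  Vale.Agent.P146.R1S Vale.Agent.P146.H191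

set_option linter.unusedSectionVars false

variable {n : ℕ} {k x : ℝ}

/-- The off-diagonal part of a matrix. -/
def od (B : Matrix (Fin n) (Fin n) ℝ) : Matrix (Fin n) (Fin n) ℝ :=
  fun i j => if i = j then 0 else B i j

/-- A function of two indices as a matrix. -/
def mx (Z : Fin n → Fin n → ℝ) : Matrix (Fin n) (Fin n) ℝ := Z

lemma mx_apply (Z : Fin n → Fin n → ℝ) (i j : Fin n) : mx Z i j = Z i j := rfl

/-- the trace of a product of a matrix given by rows -/
lemma tr_two (Y Z : Matrix (Fin n) (Fin n) ℝ) :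
    (Y * Z).trace = ∑ i, ∑ l, Y i l * Z l i := by
  simp only [Matrix.trace, Matrix.diag_apply, Matrix.mul_apply]

section row

variable (S : CS n k x) (s : ℝ) (a : Fin 4 → ℝ) {φ : (K4 (Pair n) → ℝ) → ℝ}
  {ψ' : K4 (Pair n) → (K4 (Pair n) → ℝ) → ℝ}

/-- The matrix `C` at the position. -/
noncomputable def Cm (w : K4 (Pair n) → ℝ) : Matrix (Fin n) (Fin n) ℝ := S.A s (H712.lp a w)

lemma Cm_T (w : K4 (Pair n) → ℝ) : (Cm S s a w)ᵀ = Cm S s a w := S.A_T s _

lemma Cm_comm (w : K4 (Pair n) → ℝ) (i j : Fin n) : Cm S s a w i j = Cm S s a w j i :=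
  S.A_comm s _ i j

/-- the column without the diagonal is the column of the off-diagonal part -/
lemma Uv_eq (b i : Fin n) (w : K4 (Pair n) → ℝ) : Uv S s a b w i = od (Cm S s a w) b i := by
  unfold Uv Uz od Cm
  by_cases h : i = b
  · simp [h]
  · rw [if_neg h, if_neg fun h' => h h'.symm, S.A_comm]

/-- `C` without the diagonal is `C - 1` -/
lemma od_Cm (w : K4 (Pair n) → ℝ) : od (Cm S s a w) = Cm S s a w - 1 := by
  ext i j
  unfold od
  by_cases h : i = j
  · subst h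
    rw [if_pos rfl, Matrix.sub_apply, Matrix.one_apply_eq]
    unfold Cm
    rw [S.A_self, sub_self]
  · rw [if_neg h, Matrix.sub_apply, Matrix.one_apply_ne h, sub_zero]

variable {S s a}

/-- the drift, as a matrix -/
lemma dv_eq {xt : ℝ} {B : MF n} (hB : ∀ w i j, B w i j = B w j i)
    (hdr : ∀ e w, dr a ψ' e w =
      k * (xt * S.A s (H712.lp a w) e.1.1 e.1.2 - B w e.1.1 e.1.2)) (b j : Fin n)
    (w : K4 (Pair n) → ℝ) :
    dv a ψ' b w j = k * (xt * od (Cm S s a w) j b - od (B w) j b) := by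
  unfold dv
  by_cases h : j = b
  · subst h
    rw [rw'_self]
    unfold od
    rw [if_pos rfl, if_pos rfl]
    ring
  · have e : rw' (fun e => dr a ψ' e w) b j = dr a ψ' (cp b j h) w := by
      unfold rw'
      rw [dif_neg h]
    rw [e, hdr]
    unfold od
    rw [if_neg h, if_neg h]
    unfold cp
    split_ifs with h1
    · rw [hB w b j]
      unfold Cm
      rw [S.A_comm s _ b j]
    · rfl

/-- **The main term of (F1), summed over the rows**, for `L = l C`. -/
theorem sum_mrow {l xt : ℝ} (hl : k ^ 2 * l ^ 2 * n = 1) {Y B : MF n}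
    (hB : ∀ w i j, B w i j = B w j i)
    (hdr : ∀ e w, dr a ψ' e w =
      k * (xt * S.A s (H712.lp a w) e.1.1 e.1.2 - B w e.1.1 e.1.2)) (w : K4 (Pair n) → ℝ) :
    ∑ b, mrow S s a ψ' b Y (fun w i j => l * S.A s (H712.lp a w) i j) w =
      (mx (Y w) * (od (Cm S s a w) * od (Cm S s a w))).trace +
      vr a * (mx (Y w) * (Cm S s a w * Cm S s a w)).trace -
      2 * (k ^ 2 * l * vr a) * ∑ b, (mx (Y w) *
        (Cm S s a w * S.H s b (H712.lp a w))).trace -
      k ^ 2 * l * (xt * (mx (Y w) *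
        (Cm S s a w * (od (Cm S s a w) * od (Cm S s a w)))).trace -
        (mx (Y w) *
          (Cm S s a w * (od (B w) * od (Cm S s a w)))).trace) := by
  obtain ⟨C, hC⟩ : ∃ C, C = Cm S s a w := ⟨_, rfl⟩
  have hCC : ∀ i j, S.A s (H712.lp a w) i j = C i j := fun i j => by rw [hC]; rfl
  have hCs : ∀ i j, C i j = C j i := fun i j => by rw [hC]; exact Cm_comm S s a w i j
  have hos : ∀ i j, od C i j = od C j i := fun i j => by
    unfold od
    by_cases h : i = j
    · rw [if_pos h, if_pos h.symm]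
    · rw [if_neg h, if_neg fun h' => h h'.symm, hCs]
  have h1 : ∑ b, ∑ i, ∑ l, Y w i l * (od C b i * od C b l) =
      (mx (Y w) * (od C * od C)).trace := by
    rw [tr_two, Finset.sum_comm]
    refine Finset.sum_congr rfl fun i _ => ?_
    rw [Finset.sum_comm]
    refine Finset.sum_congr rfl fun l _ => ?_
    rw [mx_apply, Matrix.mul_apply, Finset.mul_sum]
    exact Finset.sum_congr rfl fun b _ => by rw [hos l b]; ring
  have h2 : ∀ b, ∑ i, ∑ m, Y w i m * ∑ j, (l * C m j) * S.H s b (H712.lp a w) i j =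
      l * (mx (Y w) * (C * S.H s b (H712.lp a w))).trace := by
    intro b
    rw [tr_two, Finset.mul_sum]
    refine Finset.sum_congr rfl fun i _ => ?_
    rw [Finset.mul_sum]
    refine Finset.sum_congr rfl fun m _ => ?_
    rw [mx_apply, Matrix.mul_apply, Finset.mul_sum, Finset.mul_sum, Finset.mul_sum]
    exact Finset.sum_congr rfl fun j _ => by rw [S.H_comm s b _ i j]; ring
  have h3 : ∑ i, ∑ m, Y w i m * ∑ j, (l * C m j) * (l * C i j) =
      l ^ 2 * (mx (Y w) * (C * C)).trace := by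
    rw [tr_two, Finset.mul_sum]
    refine Finset.sum_congr rfl fun i _ => ?_
    rw [Finset.mul_sum]
    refine Finset.sum_congr rfl fun m _ => ?_
    rw [mx_apply, Matrix.mul_apply, Finset.mul_sum, Finset.mul_sum, Finset.mul_sum]
    exact Finset.sum_congr rfl fun j _ => by rw [hCs i j]; ring
  have h4 : ∀ D : Matrix (Fin n) (Fin n) ℝ,
      ∑ b, ∑ i, ∑ m, Y w i m * (od C b i * ∑ j, (l * C m j) * D j b) =
      l * (mx (Y w) * (C * (D * od C))).trace := by
    intro D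
    rw [tr_two, Finset.mul_sum, Finset.sum_comm]
    refine Finset.sum_congr rfl fun i _ => ?_
    rw [Finset.sum_comm, Finset.mul_sum]
    refine Finset.sum_congr rfl fun m _ => ?_
    rw [mx_apply, ← Matrix.mul_assoc, Matrix.mul_apply, Finset.mul_sum, Finset.mul_sum]
    refine Finset.sum_congr rfl fun b _ => ?_
    rw [Matrix.mul_apply, Finset.mul_sum, Finset.sum_mul, Finset.mul_sum, Finset.mul_sum,
      Finset.mul_sum]
    exact Finset.sum_congr rfl fun j _ => by ring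
  have h5 : (mx (Y w) * (C * ((k • (xt • od C - od (B w))) * od C))).trace =
      k * (xt * (mx (Y w) * (C * (od C * od C))).trace -
        (mx (Y w) * (C * (od (B w) * od C))).trace) := by
    simp only [Matrix.smul_mul, Matrix.mul_smul, Matrix.sub_mul, Matrix.mul_sub,
      Matrix.trace_smul, Matrix.trace_sub, smul_eq_mul]
  have h6 : ∀ b j, dv a ψ' b w j = (k • (xt • od C - od (B w))) j b := fun b j => by
    rw [dv_eq hB hdr, ← hC]
    simp only [Matrix.smul_apply, Matrix.sub_apply, smul_eq_mul]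
  unfold mrow
  simp only [Uv_eq, hCC, ← hC, h6]
  rw [Finset.sum_sub_distrib, Finset.sum_add_distrib, Finset.sum_sub_distrib, h1,
    ← Finset.mul_sum, ← Finset.mul_sum, ← Finset.mul_sum]
  simp only [h2, h3]
  rw [h4, h5, Finset.sum_const, Finset.card_univ, Fintype.card_fin, nsmul_eq_mul, ← Finset.mul_sum]
  have e1 : (n : ℝ) * (l ^ 2 * (mx (Y w) * (C * C)).trace) * k ^ 2 =
      (mx (Y w) * (C * C)).trace := by
    calc _ = (k ^ 2 * l ^ 2 * n) * (mx (Y w) * (C * C)).trace := by ring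
      _ = _ := by rw [hl, one_mul]
  linear_combination vr a * e1

/-- the error of the diagonal elements -/
noncomputable def dgE (S : CS n k x) (s : ℝ) (a : Fin 4 → ℝ) (l xt : ℝ) (Y B : MF n)
    (w : K4 (Pair n) → ℝ) : ℝ :=
  (2 + k ^ 2 * l * xt) * (H191.fro (Y w) * H191.fro (Cm S s a w)) +
    k ^ 2 * l * (H191.fro (Y w) * (H191.fro (Cm S s a w) * H191.fro (od (B w))))

lemma tr_two_le (Y Z : Matrix (Fin n) (Fin n) ℝ) (hZ : ∀ i j, Z i j = Z j i) :
    |(Y * Z).trace| ≤ H191.fro Y * H191.fro Z := by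
  rw [tr_two]
  have e : ∑ i, ∑ l, Y i l * Z l i = ∑ i, ∑ l, Y i l * Z i l :=
    Finset.sum_congr rfl fun i _ => Finset.sum_congr rfl fun l _ => by rw [hZ]
  rw [e]
  exact cs_fro Y Z

lemma tr_three_le (Y Z D : Matrix (Fin n) (Fin n) ℝ) :
    |(Y * (Z * D)).trace| ≤ H191.fro Y * (H191.fro Z * H191.fro D) := by
  rw [tr_two]
  have e : ∑ i, ∑ l, Y i l * (Z * D) l i = ∑ l, ∑ i, Y i l * (∑ j, Z l j * D j i) := by
    rw [Finset.sum_comm]
    simp only [Matrix.mul_apply]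
  have e2 : ∑ l, ∑ i, Y i l * (∑ j, Z l j * D j i) =
      ∑ l, ∑ i, (fun l i => Y i l) l i * (fun l i => ∑ j, Z l j * D j i) l i := rfl
  rw [e, e2]
  refine (cs_fro _ _).trans ?_
  have h1 : H191.fro (fun l i => Y i l) = H191.fro Y := by
    unfold H191.fro
    rw [Finset.sum_comm]
  rw [h1]
  exact mul_le_mul_of_nonneg_left (fro_mul Z D) (fro_nonneg _)

/-- **The main term of (F1), lower bound.** -/
theorem sum_mrow_low {l xt : ℝ} (hl : k ^ 2 * l ^ 2 * n = 1) (hl0 : 0 ≤ l) (hxt : 0 ≤ xt)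
    {Y B : MF n} (hB : ∀ w i j, B w i j = B w j i) (hY : ∀ w, (mx (Y w)).PosSemidef)
    (hdr : ∀ e w, dr a ψ' e w =
      k * (xt * S.A s (H712.lp a w) e.1.1 e.1.2 - B w e.1.1 e.1.2)) (w : K4 (Pair n) → ℝ) :
    (1 + vr a) * (mx (Y w) * (Cm S s a w * Cm S s a w)).trace -
      2 * (k ^ 2 * l * vr a) * ∑ b, (mx (Y w) * (Cm S s a w * S.H s b (H712.lp a w))).trace -
      k ^ 2 * l * (xt * (mx (Y w) * (Cm S s a w * (Cm S s a w * Cm S s a w))).trace -
        (mx (Y w) * (Cm S s a w * (od (B w) * Cm S s a w))).trace) - dgE S s a l xt Y B w ≤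
      ∑ b, mrow S s a ψ' b Y (fun w i j => l * S.A s (H712.lp a w) i j) w := by
  rw [sum_mrow hl hB hdr, od_Cm]
  obtain ⟨C, hC⟩ : ∃ C, C = Cm S s a w := ⟨_, rfl⟩
  unfold dgE
  rw [← hC]
  have hCs : ∀ i j, C i j = C j i := fun i j => by rw [hC]; exact Cm_comm S s a w i j
  have hCt : Cᵀ = C := by rw [hC]; exact Cm_T S s a w
  have hos : ∀ i j, od (B w) i j = od (B w) j i := fun i j => by
    unfold od
    by_cases h : i = j
    · rw [if_pos h, if_pos h.symm]
    · rw [if_neg h, if_neg fun h' => h h'.symm]; exact hB w i j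
  have hYt : (mx (Y w))ᵀ = mx (Y w) := by
    have := (hY w).1
    rwa [Matrix.IsHermitian, Matrix.conjTranspose_eq_transpose_of_trivial] at this
  have h1 : (mx (Y w) * ((C - 1) * (C - 1))).trace =
      (mx (Y w) * (C * C)).trace - 2 * (mx (Y w) * C).trace + (mx (Y w)).trace := by
    simp only [Matrix.sub_mul, Matrix.mul_sub, Matrix.mul_one, Matrix.one_mul, Matrix.trace_sub]
    ring
  have h2 : (mx (Y w) * (C * ((C - 1) * (C - 1)))).trace =
      (mx (Y w) * (C * (C * C))).trace - 2 * (mx (Y w) * (C * C)).trace +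
        (mx (Y w) * C).trace := by
    simp only [Matrix.sub_mul, Matrix.mul_sub, Matrix.mul_one, Matrix.one_mul, Matrix.trace_sub]
    ring
  have h3 : (mx (Y w) * (C * (od (B w) * (C - 1)))).trace =
      (mx (Y w) * (C * (od (B w) * C))).trace - (mx (Y w) * (C * od (B w))).trace := by
    simp only [Matrix.sub_mul, Matrix.mul_sub, Matrix.mul_one, Matrix.one_mul, Matrix.trace_sub]
  have h4 : 0 ≤ (mx (Y w)).trace := (hY w).trace_nonneg
  have h5 : 0 ≤ (mx (Y w) * (C * C)).trace := by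
    have hCC : (C * C).PosSemidef := by
      have := Matrix.posSemidef_conjTranspose_mul_self C
      rwa [Matrix.conjTranspose_eq_transpose_of_trivial, hCt] at this
    exact tr_mul_nonneg (hY w) hCC
  have h6 := (abs_le.1 (tr_two_le (mx (Y w)) C hCs)).2
  have h7 := (abs_le.1 (tr_three_le (mx (Y w)) C (od (B w)))).2
  rw [h1, h2, h3]
  have hk : 0 ≤ k ^ 2 * l := mul_nonneg (sq_nonneg k) hl0
  have hkx : 0 ≤ k ^ 2 * l * xt := mul_nonneg hk hxt
  have p1 := mul_le_mul_of_nonneg_left h6 (show (0 : ℝ) ≤ 2 + k ^ 2 * l * xt by linarith)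
  have p2 := mul_le_mul_of_nonneg_left h7 hk
  have p3 := mul_nonneg hkx h5
  have e1 : H191.fro (mx (Y w)) = H191.fro (Y w) := rfl
  rw [e1] at p1 p2
  nlinarith [p1, p2, p3, h4]

/-! ### the cross term -/

/-- The bound of the drift part of the row `b`. -/
noncomputable def vrow (k : ℝ) (a : Fin 4 → ℝ) (ψ' : K4 (Pair n) → (K4 (Pair n) → ℝ) → ℝ)
    (b : Fin n) (Y L : MF n) (w : K4 (Pair n) → ℝ) : ℝ :=
  k ^ 2 * (H191.fro (Y w) * (H191.fro (L w) ^ 2 * ven (dv a ψ' b w) ^ 2))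

lemma LV_dv (L : MF n) (b i : Fin n) (w : K4 (Pair n) → ℝ) :
    LV a b ψ' L i w = ∑ j, L w i j * dv a ψ' b w j := by
  unfold LV dv
  rw [sum_rw' (fun e => dr a ψ' e w) b fun j => L w i j]

lemma qY_le (Y : MF n) (f : Fin n → (K4 (Pair n) → ℝ) → ℝ) (w : K4 (Pair n) → ℝ) :
    qY Y f f w ≤ H191.fro (Y w) * ∑ i, f i w ^ 2 := by
  have h1 := (abs_le.1 (cs_fro (Y w) fun i l => f i w * f l w)).2
  rw [fro_outer (fun i => f i w) fun l => f l w] at h1
  have e : ven (fun i => f i w) * ven (fun l => f l w) = ∑ i, f i w ^ 2 := by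
    rw [← pow_two, ven_sq]
  rw [e] at h1
  exact h1

lemma qY_LV_le (Y L : MF n) (b : Fin n) (w : K4 (Pair n) → ℝ) :
    k ^ 2 * qY Y (LV a b ψ' L) (LV a b ψ' L) w ≤ vrow k a ψ' b Y L w := by
  unfold vrow
  refine mul_le_mul_of_nonneg_left ((qY_le Y _ w).trans ?_) (sq_nonneg k)
  refine mul_le_mul_of_nonneg_left ?_ (H191.fro_nonneg _)
  rw [fro_sq, ven_sq, Finset.sum_mul]
  refine Finset.sum_le_sum fun i _ => ?_
  rw [LV_dv]
  exact Finset.sum_mul_sq_le_sq_mul_sq _ _ _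

/-- `2 <N, V> ≤ η <N, N> + η⁻¹ <V, V>` for a nonnegative form -/
lemma qY_cross {Y : MF n} (hs : ∀ w i l, Y w i l = Y w l i) {w : K4 (Pair n) → ℝ}
    (hY : ∀ v : Fin n → ℝ, 0 ≤ ∑ i, ∑ l, Y w i l * (v i * v l))
    (f g : Fin n → (K4 (Pair n) → ℝ) → ℝ) {η : ℝ} (hη : 0 < η) (c : ℝ) :
    c * qY Y f g w ≤ η / 2 * qY Y f f w + 1 / (2 * η) * (c ^ 2 * qY Y g g w) := by
  have h := hY fun i => η * f i w - c * g i w
  have e : ∑ i, ∑ l, Y w i l * ((η * f i w - c * g i w) * (η * f l w - c * g l w)) =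
      η ^ 2 * qY Y f f w - η * c * qY Y f g w - η * c * qY Y g f w + c ^ 2 * qY Y g g w := by
    unfold qY
    simp only [Finset.mul_sum, ← Finset.sum_sub_distrib, ← Finset.sum_add_distrib]
    exact Finset.sum_congr rfl fun i _ => Finset.sum_congr rfl fun l _ => by ring
  rw [e, qY_comm hs g f] at h
  have h2 : 0 ≤ (η ^ 2 * qY Y f f w - 2 * (η * c * qY Y f g w) + c ^ 2 * qY Y g g w) / (2 * η) :=
    div_nonneg (by linarith) (by positivity)
  have e2 : (η ^ 2 * qY Y f f w - 2 * (η * c * qY Y f g w) + c ^ 2 * qY Y g g w) / (2 * η) =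
      η / 2 * qY Y f f w + 1 / (2 * η) * (c ^ 2 * qY Y g g w) - c * qY Y f g w := by
    field_simp
    ring
  linarith

/-- The nonlinear part of the row `b`. -/
noncomputable def nl (k : ℝ) (S : CS n k x) (s : ℝ) (a : Fin 4 → ℝ) (b : Fin n) (Y L : MF n)
    (w : K4 (Pair n) → ℝ) : ℝ :=
  qY Y (Nr a k b L (Uz S s b)) (Nr a k b L (Uz S s b)) w

lemma nrow_le {b : Fin n} {Y L : MF n} (hs : ∀ w i l, Y w i l = Y w l i)
    (hY : ∀ w, ∀ v : Fin n → ℝ, 0 ≤ ∑ i, ∑ l, Y w i l * (v i * v l)) {η : ℝ} (hη : 0 < η)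
    (w : K4 (Pair n) → ℝ) :
    nrow S s a ψ' b Y L w ≤ (1 + η / 2) * nl k S s a b Y L w +
      1 / (2 * η) * vrow k a ψ' b Y L w := by
  have h1 := qY_cross hs (hY w) (Nr a k b L (Uz S s b)) (LV a b ψ' L) hη k
  have h2 := mul_le_mul_of_nonneg_left (qY_LV_le (k := k) (a := a) (ψ' := ψ') Y L b w)
    (show (0 : ℝ) ≤ 1 / (2 * η) by positivity)
  unfold nrow nl
  nlinarith [h1, h2]

/-! ### the row (F1) as an inequality of numbers -/

lemma eg_nl {b : Fin n} {Y L : MF n} (hY : ∀ i l, EG fun w => Y w i l)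
    (hL : ∀ i l, EG fun w => L w i l) : EG (nl k S s a b Y L) := by
  have eN : ∀ i, EG (Nr a k b L (Uz S s b) i) := fun i =>
    (eg_lp a (eg_Uz S s b i)).sub ((eg_Ly hL i).const_mul _)
  exact eg_qY hY eN eN

lemma eg_vrow (h : Den φ ψ') {b : Fin n} {Y L : MF n} (hY : ∀ i l, EG fun w => Y w i l)
    (hL : ∀ i l, EG fun w => L w i l) : EG (vrow k a ψ' b Y L) :=
  ((eg_fro hY).mul (((eg_fro hL).pow 2).mul ((eg_ven fun j => eg_dv h b j).pow 2))).const_mul _

lemma eg_Cm (i j : Fin n) : EG fun w => Cm S s a w i j := eg_lp a (S.eg_A s i j)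

lemma eg_od {B : MF n} (hB : ∀ i l, EG fun w => B w i l) (i j : Fin n) :
    EG fun w => od (B w) i j := by
  unfold od
  by_cases h : i = j
  · simp only [h, if_true]
    exact EG.const 0
  · simp only [h, if_false]
    exact hB i j

lemma eg_dgE {l xt : ℝ} {Y B : MF n} (hY : ∀ i l, EG fun w => Y w i l)
    (hB : ∀ i l, EG fun w => B w i l) : EG (dgE S s a l xt Y B) :=
  (((eg_fro hY).mul (eg_fro fun i j => eg_Cm i j)).const_mul _).add
    (((eg_fro hY).mul ((eg_fro fun i j => eg_Cm i j).mul (eg_fro (eg_od hB)))).const_mul _)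

lemma eg_mulm {Y Z : (K4 (Pair n) → ℝ) → Matrix (Fin n) (Fin n) ℝ}
    (hY : ∀ i l, EG fun w => Y w i l) (hZ : ∀ i l, EG fun w => Z w i l) (i l : Fin n) :
    EG fun w => (Y w * Z w) i l := by
  simp only [Matrix.mul_apply]
  exact EG.sum _ fun j _ => (hY i j).mul (hZ j l)

lemma eg_tr {Y : (K4 (Pair n) → ℝ) → Matrix (Fin n) (Fin n) ℝ}
    (hY : ∀ i l, EG fun w => Y w i l) : EG fun w => (Y w).trace := by
  simp only [Matrix.trace, Matrix.diag_apply]
  exact EG.sum _ fun i _ => hY i i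

/-- **(F1) as an inequality of numbers**: the nonlinear part is at least the main term. -/
theorem f1_num (hs : 0 < s) (h : Den φ ψ') (hφ : ∀ w, 0 ≤ φ w) {l xt η : ℝ}
    (hl : k ^ 2 * l ^ 2 * n = 1) (hl0 : 0 ≤ l) (hxt : 0 ≤ xt) (hη : 0 < η) {Y B : MF n}
    {Y' L' : Fin n → MF n} (hY : ∀ i l, EG fun w => Y w i l) (hBe : ∀ i l, EG fun w => B w i l)
    (hYp : ∀ w, (mx (Y w)).PosSemidef) (hB : ∀ w i j, B w i j = B w j i)
    (hdr : ∀ e w, dr a ψ' e w =
      k * (xt * S.A s (H712.lp a w) e.1.1 e.1.2 - B w e.1.1 e.1.2))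
    (hY' : ∀ b, Frz b (Y' b)) (hL' : ∀ b, Frz b (L' b)) (hLb : ∀ b w i, L' b w i b = 0)
    (hYp' : ∀ b w, ∀ v : Fin n → ℝ, 0 ≤ ∑ i, ∑ l, Y' b w i l * (v i * v l)) :
    (1 + vr a) * Im φ (fun w => (mx (Y w) * (Cm S s a w * Cm S s a w)).trace) -
      2 * (k ^ 2 * l * vr a) * Im φ (fun w => ∑ b, (mx (Y w) *
        (Cm S s a w * S.H s b (H712.lp a w))).trace) -
      k ^ 2 * l * (xt * Im φ (fun w => (mx (Y w) *
        (Cm S s a w * (Cm S s a w * Cm S s a w))).trace) -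
        Im φ (fun w => (mx (Y w) * (Cm S s a w * (od (B w) * Cm S s a w))).trace)) ≤
      (1 + η / 2) * ∑ b, Im φ (nl k S s a b (Y' b) (L' b)) +
        1 / (2 * η) * ∑ b, Im φ (vrow k a ψ' b (Y' b) (L' b)) +
        Im φ (dgE S s a l xt Y B) +
        Im φ (fun w => ∑ b, erow S s a ψ' b Y (fun w i j => l * S.A s (H712.lp a w) i j)
          (Y' b) (L' b) w) := by
  have eL : ∀ i j, EG fun w : K4 (Pair n) → ℝ => l * S.A s (H712.lp a w) i j := fun i j =>
    (eg_lp a (S.eg_A s i j)).const_mul l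
  have eC : ∀ i j, EG fun w : K4 (Pair n) → ℝ => Cm S s a w i j := fun i j => eg_Cm i j
  have eY : ∀ i j, EG fun w : K4 (Pair n) → ℝ => mx (Y w) i j := hY
  have eH : ∀ b i j, EG fun w : K4 (Pair n) → ℝ => S.H s b (H712.lp a w) i j := fun b i j =>
    eg_lp a (S.eg_H hs b i j)
  have g1 : EG fun w => (mx (Y w) * (Cm S s a w * Cm S s a w)).trace :=
    eg_tr (eg_mulm eY (eg_mulm eC eC))
  have g2 : EG fun w => ∑ b, (mx (Y w) * (Cm S s a w * S.H s b (H712.lp a w))).trace :=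
    EG.sum _ fun b _ => eg_tr (eg_mulm eY (eg_mulm eC (eH b)))
  have g3 : EG fun w => (mx (Y w) * (Cm S s a w * (Cm S s a w * Cm S s a w))).trace :=
    eg_tr (eg_mulm eY (eg_mulm eC (eg_mulm eC eC)))
  have g4 : EG fun w => (mx (Y w) * (Cm S s a w * (od (B w) * Cm S s a w))).trace :=
    eg_tr (eg_mulm eY (eg_mulm eC (eg_mulm (fun i j => eg_od hBe i j) eC)))
  have g5 : EG (dgE S s a l xt Y B) := eg_dgE hY hBe
  have g6 : EG fun w => ∑ b, mrow S s a ψ' b Y (fun w i j => l * S.A s (H712.lp a w) i j) w :=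
    EG.sum _ fun b _ => eg_mrow hs h hY eL
  have key := f1_sum (S := S) (a := a) hs h hφ hY eL hY' hL' hLb
  have key2 := (abs_le.1 key).1
  have low := Im_mono hφ h.eg (f := fun w => (1 + vr a) * (mx (Y w) *
      (Cm S s a w * Cm S s a w)).trace - 2 * (k ^ 2 * l * vr a) *
      ∑ b, (mx (Y w) * (Cm S s a w * S.H s b (H712.lp a w))).trace -
      k ^ 2 * l * (xt * (mx (Y w) * (Cm S s a w * (Cm S s a w * Cm S s a w))).trace -
        (mx (Y w) * (Cm S s a w * (od (B w) * Cm S s a w))).trace) - dgE S s a l xt Y B w)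
    ((((g1.const_mul _).sub (g2.const_mul _)).sub (((g3.const_mul _).sub g4).const_mul _)).sub g5)
    g6 fun w => sum_mrow_low hl hl0 hxt hB hYp hdr w
  rw [Im_sub h.eg (((g1.const_mul _).sub (g2.const_mul _)).sub
      (((g3.const_mul _).sub g4).const_mul _)) g5,
    Im_sub h.eg ((g1.const_mul _).sub (g2.const_mul _)) (((g3.const_mul _).sub g4).const_mul _),
    Im_sub h.eg (g1.const_mul _) (g2.const_mul _), Im_const_mul, Im_const_mul, Im_const_mul,
    Im_sub h.eg (g3.const_mul _) g4, Im_const_mul] at low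
  have up : ∑ b, Im φ (nrow S s a ψ' b (Y' b) (L' b)) ≤
      (1 + η / 2) * ∑ b, Im φ (nl k S s a b (Y' b) (L' b)) +
        1 / (2 * η) * ∑ b, Im φ (vrow k a ψ' b (Y' b) (L' b)) := by
    rw [Finset.mul_sum, Finset.mul_sum, ← Finset.sum_add_distrib]
    refine Finset.sum_le_sum fun b _ => ?_
    rw [← Im_const_mul, ← Im_const_mul, ← Im_add h.eg
      ((eg_nl (hY' b).eg (hL' b).eg).const_mul _) ((eg_vrow h (hY' b).eg (hL' b).eg).const_mul _)]
    exact Im_mono hφ h.eg (eg_nrow h (hY' b).eg (hL' b).eg)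
      (((eg_nl (hY' b).eg (hL' b).eg).const_mul _).add
        ((eg_vrow h (hY' b).eg (hL' b).eg).const_mul _)) fun w =>
      nrow_le (hY' b).sy (hYp' b) hη w
  linarith

/-- **(F01)**: (F1) minus `2 vr` times (F0). -/
theorem f01_alg {A A3 H J K NL V D E P v w x θ e0 η : ℝ} (hv : 0 ≤ v) (hv1 : v ≤ 1) (hw : 0 ≤ w)
    (hA : 0 ≤ A) (hJ : 0 ≤ J) (hθ : 0 ≤ θ) (he0 : 0 ≤ e0) (hP : 0 ≤ P)
    (hF0 : w * (H + x * A3 - J) + P ≤ (1 + θ) * A + e0)
    (hF1 : (1 + v) * A - 2 * (w * v) * H - w * (x * v * A3 - K) ≤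
      (1 + η / 2) * NL + 1 / (2 * η) * V + D + E) :
    w * (v * x * A3 - 2 * J + K) + 2 * v * P ≤
      (1 + η / 2) * NL + 1 / (2 * η) * V + D + E + 2 * θ * A + 2 * e0 := by
  have h1 := mul_le_mul_of_nonneg_left hF0 (show (0 : ℝ) ≤ 2 * v by linarith)
  have h2 : w * (v * J) ≤ w * J := mul_le_mul_of_nonneg_left (by nlinarith) hw
  have h3 : v * (θ * A) ≤ θ * A := by nlinarith [mul_nonneg hθ hA]
  have h4 : v * e0 ≤ e0 := by nlinarith
  have h5 : 0 ≤ (1 - v) * A := mul_nonneg (by linarith) hA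
  nlinarith [h1, h2, h3, h4, h5]

end row

end Vale.Agent.P146.H941
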