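import Vale.Agent.P146.H941.TouS
import Vale.Agent.P146.H941.SkTS
import Vale.Agent.P146.H326.PrI

/-!
Plan R1, block C, for a position system: the moments `M` and the touches `δ` of the pairs of
sites, as used by the cleaning, and their sums over the pairs.
-/

open MeasureTheory ProbabilityTheory

namespace Vale.Agent.P146.R1S

open Vale.Agent.P157.Lv Vale.Agent.P146.H712 Vale.Agent.P146.H325
  Vale.Agent.P146.R1C Vale.Agent.P146.R1 Vale.Agent.P146.H425 Vale.Agent.P146.H816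
open Vale.Agent.P146.H332 hiding Nf Gf
open Vale.Agent.P146.H326 (LCh P2_k2 P3_k3 k2_sum k3_sum eg_ph ph_nonneg ind_ph1 ind_ph2 int_ph1
  int_phf s2_pos int_ph_nonneg Ew_En ph_le)

set_option linter.unusedSectionVars false

variable {n : ℕ} {k x : ℝ} {S : CS n k x} {q : Par} {F : (Pair n → ℝ) → ℝ}
  {D : Pair n → (Pair n → ℝ) → ℝ} {B L ε : ℝ}

/-- `s1 k² |C_1|²` -/
noncomputable def Y1 (S : CS n k x) (q : Par) (w : K4 (Pair n) → ℝ) : ℝ :=
  q.s1 * (k ^ 2 * fr (S.A q.s1 (H712.lp (k2 q) w)))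

/-- `s2 k² |C_2|²` -/
noncomputable def Y2 (S : CS n k x) (q : Par) (w : K4 (Pair n) → ℝ) : ℝ :=
  q.s2 * (k ^ 2 * fr (S.A q.s2 (H712.lp (k3 q) w)))

/-- the sixth moments -/
noncomputable def MS (S : CS n k x) (q : Par) (F : (Pair n → ℝ) → ℝ) (b b' : Fin n) : ℝ :=
  4 * ((∫ w, ph q F b b' w ∂(gI (K4 (Pair n)))) +
    1222 * ((∫ w, ph q F b b' w * Y1 S q w ^ 3 ∂(gI (K4 (Pair n)))) +
      ∫ w, ph q F b b' w * Y2 S q w ^ 3 ∂(gI (K4 (Pair n)))))

/-- the squared touches -/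
noncomputable def d2 (S : CS n k x) (q : Par) (F : (Pair n → ℝ) → ℝ) (b b' : Fin n) : ℝ :=
  q.s1 * ((∫ w, ph q F b b' w * tch S q.s1 (k2 q) b b' w ∂(gI (K4 (Pair n)))) +
    ∫ w, ph q F b b' w * tch S q.s1 (k2 q) b' b w ∂(gI (K4 (Pair n)))) +
  q.s2 * ((∫ w, ph q F b b' w * tch S q.s2 (k3 q) b b' w ∂(gI (K4 (Pair n)))) +
    ∫ w, ph q F b b' w * tch S q.s2 (k3 q) b' b w ∂(gI (K4 (Pair n))))

/-- the touches -/
noncomputable def dS (S : CS n k x) (q : Par) (F : (Pair n → ℝ) → ℝ) (b b' : Fin n) : ℝ :=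
  √(d2 S q F b b')

section basic

variable (h : C11 F D B L) (hq : q.Ok)
include h hq

omit h hq in
lemma Y1_nonneg (hq : q.Ok) (w : K4 (Pair n) → ℝ) : 0 ≤ Y1 S q w :=
  mul_nonneg ((hq.h0.trans hq.h01).trans hq.h1) (mul_nonneg (sq_nonneg _) (H325.fr_nonneg _))

omit h hq in
lemma Y2_nonneg (hq : q.Ok) (w : K4 (Pair n) → ℝ) : 0 ≤ Y2 S q w :=
  mul_nonneg (((hq.h0.trans hq.h01).trans hq.h1).trans hq.h12)
    (mul_nonneg (sq_nonneg _) (H325.fr_nonneg _))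

omit h hq in
lemma eg_Y1 : EG (Y1 S q) := eg_Y S _

omit h hq in
lemma eg_Y2 : EG (Y2 S q) := eg_Y S _

/-- the sixth moments of the columns of the pair -/
lemma six (hs1 : 0 < q.s1) (b b' : Fin n) (c : Fin n) (hi : Ind (lf (row c)) (ph q F b b')) :
    (∫ w, ph q F b b' w * vn (H816.col (A1 S q w) c) ^ 3 ∂(gI (K4 (Pair n))) ≤ MS S q F b b') ∧
    ∫ w, ph q F b b' w * vn (H816.col (A2 S q w) c) ^ 3 ∂(gI (K4 (Pair n))) ≤ MS S q F b b' := by
  have m1 := col6 S (k2 q) (k2_sum hq) hs1 (eg_ph h hq b b')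
    (ph_nonneg h hq b b') hi
  have m2 := col6 S (k3 q) (k3_sum hq) (s2_pos hq hs1)
    (eg_ph h hq b b') (ph_nonneg h hq b b') hi
  have y1 := int_ph_nonneg h hq b b' (f := fun w => Y1 S q w ^ 3)
    fun w => pow_nonneg (Y1_nonneg hq w) 3
  have y2 := int_ph_nonneg h hq b b' (f := fun w => Y2 S q w ^ 3)
    fun w => pow_nonneg (Y2_nonneg hq w) 3
  have e1 : ∀ w : K4 (Pair n) → ℝ, A1 S q w = S.A q.s1 (H712.lp (k2 q) w) := fun w => by
    unfold A1; rw [P2_k2]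
  have e2 : ∀ w : K4 (Pair n) → ℝ, A2 S q w = S.A q.s2 (H712.lp (k3 q) w) := fun w => by
    unfold A2; rw [P3_k3]
  simp only [e1, e2]
  refine ⟨m1.trans ?_, m2.trans ?_⟩
  · unfold MS
    have : ∫ w, ph q F b b' w * (q.s1 * (k ^ 2 * fr (S.A q.s1 (H712.lp (k2 q) w)))) ^ 3
      ∂(gI (K4 (Pair n))) = ∫ w, ph q F b b' w * Y1 S q w ^ 3 ∂(gI (K4 (Pair n))) := rfl
    rw [this]
    linarith
  · unfold MS
    have : ∫ w, ph q F b b' w * (q.s2 * (k ^ 2 * fr (S.A q.s2 (H712.lp (k3 q) w)))) ^ 3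
      ∂(gI (K4 (Pair n))) = ∫ w, ph q F b b' w * Y2 S q w ^ 3 ∂(gI (K4 (Pair n))) := rfl
    rw [this]
    linarith

/-- the moments of the clean columns of the pair -/
lemma six_cl (hs1 : 0 < q.s1) (b b' : Fin n) (c c' : Fin n)
    (hi : Ind (lf (row c)) (ph q F b b')) (hi' : Ind (lf (row c')) (ph q F b b')) :
    (∫ w, ph q F b b' w * H706.vs (a1 S q c c' w) ^ 3 ∂(gI (K4 (Pair n))) ≤ MS S q F b b') ∧
    ∫ w, ph q F b b' w * H706.vs (a2 S q c c' w) ^ 3 ∂(gI (K4 (Pair n))) ≤ MS S q F b b' := by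
  obtain ⟨m1, m2⟩ := six (S := S) h hq hs1 b b' c hi
  have n1 := mom_Av (A := fun w => H816.col (A1 S q w) c) (eg_ph h hq b b')
    (ph_nonneg h hq b b') hi' fun i => eg_A1 i c
  have n2 := mom_Av (A := fun w => H816.col (A2 S q w) c) (eg_ph h hq b b')
    (ph_nonneg h hq b b') hi' fun i => eg_A2 i c
  have e1 : ∀ w : K4 (Pair n) → ℝ, A1 S q w = S.A q.s1 (H712.lp (k2 q) w) := fun w => by
    unfold A1; rw [P2_k2]
  have e2 : ∀ w : K4 (Pair n) → ℝ, A2 S q w = S.A q.s2 (H712.lp (k3 q) w) := fun w => by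
    unfold A2; rw [P3_k3]
  have f1 : ∀ w, a1 S q c c' w =
      fun i => Av (lf (row c')) (fun w => H816.col (A1 S q w) c i) w := by
    intro w
    funext i
    rw [a1_eq hq]
    simp only [e1]
    rfl
  have f2 : ∀ w, a2 S q c c' w =
      fun i => Av (lf (row c')) (fun w => H816.col (A2 S q w) c i) w := by
    intro w
    funext i
    rw [a2_eq hq]
    simp only [e2]
    rfl
  simp only [f1, f2]
  exact ⟨n1.trans m1, n2.trans m2⟩

/-- the touches of the pair -/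
lemma two_t (b b' : Fin n) (c c' : Fin n) (hi' : Ind (lf (row c')) (ph q F b b')) :
    (∫ w, ph q F b b' w * H706.vs (H816.col (A1 S q w) c - a1 S q c c' w)
      ∂(gI (K4 (Pair n))) ≤
      q.s1 * ∫ w, ph q F b b' w * tch S q.s1 (k2 q) c c' w ∂(gI (K4 (Pair n)))) ∧
    ∫ w, ph q F b b' w * H706.vs (H816.col (A2 S q w) c - a2 S q c c' w)
      ∂(gI (K4 (Pair n))) ≤
      q.s2 * ∫ w, ph q F b b' w * tch S q.s2 (k3 q) c c' w ∂(gI (K4 (Pair n))) := by
  have t1 := touch S (b := c) (k2_sum hq) (eg_ph h hq b b')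
    (ph_nonneg h hq b b') hi'
  have t2 := touch S (b := c) (k3_sum hq) (eg_ph h hq b b')
    (ph_nonneg h hq b b') hi'
  refine ⟨le_trans (le_of_eq ?_) t1, le_trans (le_of_eq ?_) t2⟩
  · refine integral_congr_ae (Filter.Eventually.of_forall fun w => ?_)
    simp only
    congr 1
    refine Finset.sum_congr rfl fun i _ => ?_
    show (A1 S q w i c - a1 S q c c' w i) ^ 2 = _
    rw [a1_eq hq]
    unfold A1
    simp only [P2_k2]
  · refine integral_congr_ae (Filter.Eventually.of_forall fun w => ?_)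
    simp only
    congr 1
    refine Finset.sum_congr rfl fun i _ => ?_
    show (A2 S q w i c - a2 S q c c' w i) ^ 2 = _
    rw [a2_eq hq]
    unfold A2
    simp only [P3_k3]

lemma d2_parts (b b' : Fin n) :
    (0 ≤ q.s1 * ∫ w, ph q F b b' w * tch S q.s1 (k2 q) b b' w ∂(gI (K4 (Pair n)))) ∧
    (0 ≤ q.s1 * ∫ w, ph q F b b' w * tch S q.s1 (k2 q) b' b w ∂(gI (K4 (Pair n)))) ∧
    (0 ≤ q.s2 * ∫ w, ph q F b b' w * tch S q.s2 (k3 q) b b' w ∂(gI (K4 (Pair n)))) ∧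
    0 ≤ q.s2 * ∫ w, ph q F b b' w * tch S q.s2 (k3 q) b' b w ∂(gI (K4 (Pair n))) := by
  have h1 : 0 ≤ q.s1 := (hq.h0.trans hq.h01).trans hq.h1
  have h2 : 0 ≤ q.s2 := h1.trans hq.h12
  exact ⟨mul_nonneg h1 (int_ph_nonneg h hq b b' (tch_nonneg _ _ _ _)),
    mul_nonneg h1 (int_ph_nonneg h hq b b' (tch_nonneg _ _ _ _)),
    mul_nonneg h2 (int_ph_nonneg h hq b b' (tch_nonneg _ _ _ _)),
    mul_nonneg h2 (int_ph_nonneg h hq b b' (tch_nonneg _ _ _ _))⟩

lemma dS_sq (b b' : Fin n) : dS S q F b b' ^ 2 = d2 S q F b b' := by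
  unfold dS
  rw [Real.sq_sqrt]
  obtain ⟨p1, p2, p3, p4⟩ := d2_parts (S := S) h hq b b'
  unfold d2
  linarith

/-- **The moments and the touches of the pairs.** -/
theorem pr_cs (hs1 : 0 < q.s1) : PrS S q F (MS S q F) (dS S q F) := by
  intro b b' hb
  have i1 := ind_ph1 (q := q) (F := F) b b'
  have i2 := ind_ph2 (q := q) (F := F) b b'
  obtain ⟨m1, m2⟩ := six (S := S) h hq hs1 b b' b i1
  obtain ⟨m3, m4⟩ := six (S := S) h hq hs1 b b' b' i2
  obtain ⟨m5, m6⟩ := six_cl (S := S) h hq hs1 b b' b b' i1 i2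
  obtain ⟨m7, m8⟩ := six_cl (S := S) h hq hs1 b b' b' b i2 i1
  obtain ⟨t1, t2⟩ := two_t (S := S) h hq b b' b b' i2
  obtain ⟨t3, t4⟩ := two_t (S := S) h hq b b' b' b i1
  obtain ⟨p1, p2, p3, p4⟩ := d2_parts (S := S) h hq b b'
  have hd := dS_sq (S := S) h hq b b'
  unfold d2 at hd
  refine ⟨eg_ph h hq b b', ph_nonneg h hq b b', fun i => eg_A1 i b, fun i => eg_A2 i b,
    fun i => eg_A1 i b', fun i => eg_A2 i b', fun i => eg_P2 (eg_cl S _ b' b i),
    fun i => eg_P3 (eg_cl S _ b' b i), m1, m2, m3, m4, m5, m6, m7, m8, Real.sqrt_nonneg _,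
    ?_, ?_, ?_, ?_⟩
  · refine t1.trans ?_
    rw [hd]
    linarith
  · refine t2.trans ?_
    rw [hd]
    linarith
  · refine t3.trans ?_
    rw [hd]
    linarith
  · refine t4.trans ?_
    rw [hd]
    linarith

end basic

/-! ### the numbers -/

section num

/-- the bound of the sixth moments -/
noncomputable def m6S (S : CS n k x) (q : Par) (F : (Pair n → ℝ) → ℝ) (ε : ℝ) : ℝ :=
  4 * (1 + 1222 * (2 * En q F (fun w => Y1 S q w ^ 3) + 2 * En q F (fun w => Y2 S q w ^ 3) +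
    2 * ε * (k ^ 2 * n ^ 2) ^ 3))

/-- the bound of the sum of the squared touches -/
noncomputable def dlS (S : CS n k x) (q : Par) (F : (Pair n → ℝ) → ℝ) (ε : ℝ) : ℝ :=
  8 * (q.s1 * En q F (rat S q.s1 (k2 q)) + q.s2 * En q F (rat S q.s2 (k3 q))) +
    36 * (ε * (k ^ 2 * n ^ 4))

lemma Y_le {s : ℝ} (hs : s ≤ 1) (z : Pair n → ℝ) :
    s * (k ^ 2 * fr (S.A s z)) ≤ k ^ 2 * n ^ 2 := by
  have h1 := S.fr_A_le s z
  have h2 := H325.fr_nonneg (S.A s z)
  have h3 : k ^ 2 * fr (S.A s z) ≤ k ^ 2 * n ^ 2 := mul_le_mul_of_nonneg_left h1 (sq_nonneg k)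
  have h4 : 0 ≤ k ^ 2 * fr (S.A s z) := mul_nonneg (sq_nonneg k) h2
  have h5 := mul_le_of_le_one_left h4 hs
  linarith

variable (h : C11 F D B L) (hq : q.Ok) (hl : LCh q F ε) (hε : 0 ≤ ε)
include h hq hl

/-- the sixth moments -/
theorem M_le (b b' : Fin n) : MS S q F b b' ≤ Ew q F (fun _ => 1) * m6S S q F ε := by
  have hs1 : 0 ≤ q.s1 := (hq.h0.trans hq.h01).trans hq.h1
  have hs2 : 0 ≤ q.s2 := hs1.trans hq.h12
  have a1 := ph_le h hq hl b b' (f := fun w => Y1 S q w ^ 3) (K := (k ^ 2 * n ^ 2) ^ 3)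
    (eg_Y1.pow 3) (fun w => pow_nonneg (Y1_nonneg hq w) 3)
    fun w => pow_le_pow_left₀ (Y1_nonneg hq w) (Y_le (hq.h12.trans hq.h2) _) 3
  have a2 := ph_le h hq hl b b' (f := fun w => Y2 S q w ^ 3) (K := (k ^ 2 * n ^ 2) ^ 3)
    (eg_Y2.pow 3) (fun w => pow_nonneg (Y2_nonneg hq w) 3)
    fun w => pow_le_pow_left₀ (Y2_nonneg hq w) (Y_le hq.h2 _) 3
  unfold MS m6S
  rw [int_ph1 h hq]
  nlinarith

include hε

/-- **The sum of the squared touches.** -/
theorem d_le (hp1 : 0 < q.s1) : ∑ b : Fin n, ∑ b' ∈ Finset.univ.erase b, dS S q F b b' ^ 2 ≤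
    Ew q F (fun _ => 1) * dlS S q F ε := by
  have hs1 : 0 ≤ q.s1 := (hq.h0.trans hq.h01).trans hq.h1
  have hs2 : 0 ≤ q.s2 := hs1.trans hq.h12
  have hs1' : q.s1 ≤ 1 := hq.h12.trans hq.h2
  have hE := Ew_one_pos (q := q) h hq.x0
  have hp := eg_dens (q := q) h hq.x0
  have p0 : ∀ w, 0 ≤ dens q F w := fun w => by rw [dens_eq]; exact (Real.exp_pos _).le
  obtain ⟨E, hEE⟩ : ∃ E, E = Ew q F (fun _ : K4 (Pair n) → ℝ => (1 : ℝ)) := ⟨_, rfl⟩
  rw [← hEE] at hE ⊢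
  -- one position
  have key : ∀ (s : ℝ) (_ : 0 < s) (c : Fin 4 → ℝ),
      ∑ b : Fin n, ∑ b' ∈ Finset.univ.erase b,
        ((∫ w, ph q F b b' w * tch S s c b b' w ∂(gI (K4 (Pair n)))) +
          ∫ w, ph q F b b' w * tch S s c b' b w ∂(gI (K4 (Pair n)))) ≤
        E * (8 * En q F (rat S s c) + 18 * (ε * (k ^ 2 * n ^ 4))) := by
    intro s hs c
    have b1 : ∀ b b' : Fin n, (∫ w, ph q F b b' w * tch S s c b b' w ∂(gI (K4 (Pair n)))) +
        ∫ w, ph q F b b' w * tch S s c b' b w ∂(gI (K4 (Pair n))) ≤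
        2 * Ew q F (tch S s c b b') + 2 * Ew q F (tch S s c b' b) +
          E * (18 * (ε * (k ^ 2 * n ^ 2))) := by
      intro b b'
      rw [int_phf h hq b b' (eg_tch S c b b'), int_phf h hq b b' (eg_tch S c b' b)]
      have c1 := hl b b' (tch S s c b b') (9 * k ^ 2 * n ^ 2) (eg_tch S c b b')
        (tch_nonneg S c b b') (tch_le S hs c b b')
      have c2 := hl b b' (tch S s c b' b) (9 * k ^ 2 * n ^ 2) (eg_tch S c b' b)
        (tch_nonneg S c b' b) (tch_le S hs c b' b)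
      rw [← hEE] at c1 c2
      linarith
    have b2 : ∑ b : Fin n, ∑ b' ∈ Finset.univ.erase b, Ew q F (tch S s c b b') ≤
        2 * Ew q F (rat S s c) := by
      have c1 : ∑ b : Fin n, ∑ b' ∈ Finset.univ.erase b, Ew q F (tch S s c b b') =
          ∫ w, dens q F w * ∑ b : Fin n, ∑ b' ∈ Finset.univ.erase b, tch S s c b b' w
            ∂(gI (K4 (Pair n))) :=
        (int_sum_pairs hp fun b b' => eg_tch S c b b').symm
      rw [c1]
      unfold Ew
      rw [← integral_const_mul]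
      refine integral_mono (hp.mul (eg_sum_pairs fun b b' => eg_tch S c b b')).integrable
        ((hp.mul (eg_rat S c)).integrable.const_mul 2) fun w => ?_
      have c2 := mul_le_mul_of_nonneg_left (sum_tch S (s := s) c w) (p0 w)
      simp only
      linarith
    have b3 : ∑ b : Fin n, ∑ b' ∈ Finset.univ.erase b, Ew q F (tch S s c b' b) =
        ∑ b : Fin n, ∑ b' ∈ Finset.univ.erase b, Ew q F (tch S s c b b') :=
      sum_pairs_swap fun b b' => Ew q F (tch S s c b' b)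
    have b4 : ∑ b : Fin n, ∑ b' ∈ Finset.univ.erase b, E * (18 * (ε * (k ^ 2 * n ^ 2))) ≤
        E * (18 * (ε * (k ^ 2 * n ^ 4))) := by
      have c0 : (0 : ℝ) ≤ E * (18 * (ε * (k ^ 2 * n ^ 2))) := by positivity
      have c1 : ∀ b : Fin n, ∑ b' ∈ Finset.univ.erase b, E * (18 * (ε * (k ^ 2 * n ^ 2))) ≤
          n * (E * (18 * (ε * (k ^ 2 * n ^ 2)))) := by
        intro b
        rw [Finset.sum_const, nsmul_eq_mul]
        refine mul_le_mul_of_nonneg_right ?_ c0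
        have h2 := Finset.card_le_univ (Finset.univ.erase b)
        rw [Fintype.card_fin] at h2
        exact_mod_cast h2
      refine (Finset.sum_le_sum fun b _ => c1 b).trans (le_of_eq ?_)
      rw [Finset.sum_const, Finset.card_univ, Fintype.card_fin, nsmul_eq_mul]
      ring
    refine (Finset.sum_le_sum fun b _ => Finset.sum_le_sum fun b' _ => b1 b b').trans ?_
    simp only [Finset.sum_add_distrib, ← Finset.mul_sum] at b4 ⊢
    rw [b3]
    have b5 := Ew_En h hq.x0 (rat S s c)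
    rw [← hEE] at b5
    rw [b5] at b2
    linarith
  have k1 := key q.s1 hp1 (k2 q)
  have k2' := key q.s2 (s2_pos hq hp1) (k3 q)
  have e1 : ∑ b : Fin n, ∑ b' ∈ Finset.univ.erase b, dS S q F b b' ^ 2 =
      q.s1 * (∑ b : Fin n, ∑ b' ∈ Finset.univ.erase b,
        ((∫ w, ph q F b b' w * tch S q.s1 (k2 q) b b' w ∂(gI (K4 (Pair n)))) +
          ∫ w, ph q F b b' w * tch S q.s1 (k2 q) b' b w ∂(gI (K4 (Pair n))))) +
      q.s2 * (∑ b : Fin n, ∑ b' ∈ Finset.univ.erase b,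
        ((∫ w, ph q F b b' w * tch S q.s2 (k3 q) b b' w ∂(gI (K4 (Pair n)))) +
          ∫ w, ph q F b b' w * tch S q.s2 (k3 q) b' b w ∂(gI (K4 (Pair n))))) := by
    simp only [dS_sq (S := S) h hq]
    unfold d2
    simp only [Finset.sum_add_distrib, ← Finset.mul_sum]
  rw [e1]
  have l1 := mul_le_mul_of_nonneg_left k1 hs1
  have l2 := mul_le_mul_of_nonneg_left k2' hs2
  have m0 : 0 ≤ E * (18 * (ε * (k ^ 2 * (n : ℝ) ^ 4))) := by positivity
  have m1 := mul_le_of_le_one_left m0 hs1'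
  have m2 := mul_le_of_le_one_left m0 hq.h2
  unfold dlS
  linarith

end num

end Vale.Agent.P146.R1S
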