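import Vale.Agent.P146.H604.HRowSk
import Vale.Agent.P146.H941.SkTS

/-!
R1, block C, target (T4) (the h-row) for a position system, at both times: the S-form of
`H604.HRowSk`.
-/

open MeasureTheory ProbabilityTheory

namespace Vale.Agent.P146.R1S

open Vale.Agent.P157.Lv Vale.Agent.P146.H425 Vale.Agent.P146.H325
  Vale.Agent.P146.H712 Vale.Agent.P146.R1 Vale.Agent.P146.R1C Vale.Agent.P146.H816
  Vale.Agent.P146.H604 Matrix
open Vale.Agent.P146.H332 hiding Nf Gf

set_option linter.unusedSectionVars false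

variable {n : ℕ} {k x : ℝ} {S : CS n k x} {q : Par} {F : (Pair n → ℝ) → ℝ}
  {D : Pair n → (Pair n → ℝ) → ℝ} {B L : ℝ} {M δ lam M2 ζ : Fin n → Fin n → ℝ}

/-- the data of a pair at the time `s1` -/
lemma hp1 (h : C11 F D B L) (hx : 0 < q.x) (hP : PrS S q F M δ)
    (hI : HIn q F (A1 S q) M M2 ζ lam) {b b' : Fin n} (hb : b' ≠ b) :
    Hp (dens q F) (lf (row b) ∪ lf (row b')) (fun w => H816.col (A1 S q w) b)
      (fun w => H816.col (A1 S q w) b') (a1 S q b b') (a1 S q b' b) (Zn (A1 S q)) (M b b')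
      (M2 b b') (δ b b') (ζ b b') (lam b b') := by
  have e : lf (row b) ∪ lf (row b') = lf (row b ∪ row b') := (lf_union _ _).symm
  rw [e]
  have p := hP b b' hb
  exact
    { ep := eg_dens h hx
      p0 := dens_nonneg
      eA := p.eA
      eA' := p.eA'
      ea := fun i => eg_P2 (eg_cl S _ b b' i)
      ea' := p.ea'
      eZ := eg_Zn hI.eA
      Z0 := Zn_nonneg
      mA := p.mA
      mA' := p.mA'
      ma := p.ma
      ma' := p.ma'
      mZ := hI.mZ b b' hb
      m2 := hI.m2 b b' hb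
      hδ := p.hδ
      hζ := hI.hζ b b' hb
      dA := p.dA
      dA' := p.dA'
      dZ := hI.dZ b b' hb
      l1 := hI.l1 b b' hb
      l2 := hI.l2 b b' hb
      l3 := hI.l3 b b' hb }

/-- the data of a pair at the time `s2` -/
lemma hp2 (h : C11 F D B L) (hx : 0 < q.x) (hP : PrS S q F M δ)
    (hI : HIn q F (A2 S q) M M2 ζ lam) {b b' : Fin n} (hb : b' ≠ b) :
    Hp (dens q F) (lf (row b) ∪ lf (row b')) (fun w => H816.col (A2 S q w) b)
      (fun w => H816.col (A2 S q w) b') (a2 S q b b') (a2 S q b' b) (Zn (A2 S q)) (M b b')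
      (M2 b b') (δ b b') (ζ b b') (lam b b') := by
  have e : lf (row b) ∪ lf (row b') = lf (row b ∪ row b') := (lf_union _ _).symm
  rw [e]
  have p := hP b b' hb
  exact
    { ep := eg_dens h hx
      p0 := dens_nonneg
      eA := p.eD
      eA' := p.eD'
      ea := fun i => eg_P3 (eg_cl S _ b b' i)
      ea' := p.ed'
      eZ := eg_Zn hI.eA
      Z0 := Zn_nonneg
      mA := p.mD
      mA' := p.mD'
      ma := p.md
      ma' := p.md'
      mZ := hI.mZ b b' hb
      m2 := hI.m2 b b' hb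
      hδ := p.hδ
      hζ := hI.hζ b b' hb
      dA := p.dD
      dA' := p.dD'
      dZ := hI.dZ b b' hb
      l1 := hI.l1 b b' hb
      l2 := hI.l2 b b' hb
      l3 := hI.l3 b b' hb }

/-- the mean square of the clean column in the objects of `CDef` -/
lemma eF1 (hq : q.Ok) (b b' : Fin n) (w : K4 (Pair n) → ℝ) :
    eF (lf (row b ∪ row b')) b b' (a1 S q b b') w = ee S q.s1 b b' (P2 q w) := by
  unfold eF ee
  have he : EG fun z => ∑ i, cl0 S q.s1 b b' z i ^ 2 := by
    refine EG.sum _ fun i _ => ?_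
    unfold cl0
    by_cases hi : i = b ∨ i = b'
    · simp only [hi, if_true]
      exact (EG.const 0).pow 2
    · simp only [hi, if_false]
      exact (eg_cl S _ b b' i).pow 2
  rw [← Av_lf_P2 hq he]
  rfl

lemma eF2 (hq : q.Ok) (b b' : Fin n) (w : K4 (Pair n) → ℝ) :
    eF (lf (row b ∪ row b')) b b' (a2 S q b b') w = ee S q.s2 b b' (P3 q w) := by
  unfold eF ee
  have he : EG fun z => ∑ i, cl0 S q.s2 b b' z i ^ 2 := by
    refine EG.sum _ fun i _ => ?_
    unfold cl0
    by_cases hi : i = b ∨ i = b'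
    · simp only [hi, if_true]
      exact (EG.const 0).pow 2
    · simp only [hi, if_false]
      exact (eg_cl S _ b b' i).pow 2
  rw [← Av_lf_P3 hq he]
  rfl

/-- the average of `Zn` in the objects of `CDef` -/
lemma AvZ1 (hq : q.Ok) (R : Finset (Pair n)) (w : K4 (Pair n) → ℝ) :
    Av (lf R) (Zn (A1 S q)) w = AvP q.s1 R (fun z => fr (S.A q.s1 z) / n) (P2 q w) := by
  have he : EG fun z : Pair n → ℝ => fr (S.A q.s1 z) / n := by
    unfold fr
    simp only [div_eq_inv_mul]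
    exact (EG.sum _ fun i _ => EG.sum _ fun j _ => (tA_eg S q.s1 i j).pow 2).const_mul _
  rw [← Av_lf_P2 hq he]
  rfl

lemma AvZ2 (hq : q.Ok) (R : Finset (Pair n)) (w : K4 (Pair n) → ℝ) :
    Av (lf R) (Zn (A2 S q)) w = AvP q.s2 R (fun z => fr (S.A q.s2 z) / n) (P3 q w) := by
  have he : EG fun z : Pair n → ℝ => fr (S.A q.s2 z) / n := by
    unfold fr
    simp only [div_eq_inv_mul]
    exact (EG.sum _ fun i _ => EG.sum _ fun j _ => (tA_eg S q.s2 i j).pow 2).const_mul _
  rw [← Av_lf_P3 hq he]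
  rfl

/-- the difference which the h-row controls, time `s1` -/
noncomputable def hd1 (S : CS n k x) (q : Par) (b b' : Fin n) (w : K4 (Pair n) → ℝ) : ℝ :=
  1 + ee S q.s1 b b' (P2 q w) -
    AvP q.s1 (row b ∪ row b') (fun z => fr (S.A q.s1 z) / n) (P2 q w)

/-- the difference which the h-row controls, time `s2` -/
noncomputable def hd2 (S : CS n k x) (q : Par) (b b' : Fin n) (w : K4 (Pair n) → ℝ) : ℝ :=
  1 + ee S q.s2 b b' (P3 q w) -
    AvP q.s2 (row b ∪ row b') (fun z => fr (S.A q.s2 z) / n) (P3 q w)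

/-- **(T4)**, time `s1` -/
theorem hrow1 (h : C11 F D B L) (hq : q.Ok) (hP : PrS S q F M δ)
    (hI : HIn q F (A1 S q) M M2 ζ lam) :
    ∑ b, ∑ b' ∈ Finset.univ.erase b, Ew q F (fun w => hd1 S q b b' w ^ 2) ≤
      ∑ b, ∑ b' ∈ Finset.univ.erase b,
        (4 * lam b b' + 8 * (δ b b' * √(M b b')) + 2 * (ζ b b' * √(M2 b b'))) := by
  have key := hrow_sum (p := dens q F) (Z := Zn (A1 S q)) (Rb := fun b => lf (row b))
    (ρ := fun b b' => pk (Equiv.swap b b')) (A := fun b w => H816.col (A1 S q w) b)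
    (a := a1 S q) (d := a2 S q) (M := M) (M2 := M2) (δ := δ) (ζ := ζ) (lam := lam)
    (eg_dens h hq.x0) (fun b i => hI.eA i b) (eg_Zn hI.eA)
    (fun b b' hb => two_cs S q hb.symm) (fun b b' hb w => cl_self S _ b b' _)
    (fun b b' hb => hp1 h hq.x0 hP hI hb.symm) (fun w => sum_vs_col _) dens_nonneg
  refine le_trans (le_of_eq ?_) key
  refine Finset.sum_congr rfl fun b _ => Finset.sum_congr rfl fun b' _ => ?_
  unfold Ew
  refine integral_congr_ae (Filter.Eventually.of_forall fun w => ?_)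
  simp only
  rw [← lf_union, eF1 hq, AvZ1 hq]
  rfl

/-- **(T4)**, time `s2` -/
theorem hrow2 (h : C11 F D B L) (hq : q.Ok) (hP : PrS S q F M δ)
    (hI : HIn q F (A2 S q) M M2 ζ lam) :
    ∑ b, ∑ b' ∈ Finset.univ.erase b, Ew q F (fun w => hd2 S q b b' w ^ 2) ≤
      ∑ b, ∑ b' ∈ Finset.univ.erase b,
        (4 * lam b b' + 8 * (δ b b' * √(M b b')) + 2 * (ζ b b' * √(M2 b b'))) := by
  have key := hrow_sum (p := dens q F) (Z := Zn (A2 S q)) (Rb := fun b => lf (row b))
    (ρ := fun b b' => pk (Equiv.swap b b')) (A := fun b w => H816.col (A2 S q w) b)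
    (a := a2 S q) (d := a1 S q) (M := M) (M2 := M2) (δ := δ) (ζ := ζ) (lam := lam)
    (eg_dens h hq.x0) (fun b i => hI.eA i b) (eg_Zn hI.eA)
    (fun b b' hb => Two_symm (two_cs S q hb.symm)) (fun b b' hb w => cl_self S _ b b' _)
    (fun b b' hb => hp2 h hq.x0 hP hI hb.symm) (fun w => sum_vs_col _) dens_nonneg
  refine le_trans (le_of_eq ?_) key
  refine Finset.sum_congr rfl fun b _ => Finset.sum_congr rfl fun b' _ => ?_
  unfold Ew
  refine integral_congr_ae (Filter.Eventually.of_forall fun w => ?_)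
  simp only
  rw [← lf_union, eF2 hq, AvZ2 hq]
  rfl

/-! ### normalized form -/

variable {m6 dl m4 zl ls : ℝ}

/-- **(T4)**, time `s1`, normalized -/
theorem hrow1_n (h : C11 F D B L) (hq : q.Ok) (hP : PrS S q F M δ)
    (hI : HIn q F (A1 S q) M M2 ζ lam) (hN : HNb q F M δ M2 ζ lam m6 dl m4 zl ls) :
    ∑ b, ∑ b' ∈ Finset.univ.erase b, En q F (fun w => hd1 S q b b' w ^ 2) ≤
      4 * (n ^ 2 * ls) + 8 * (n * √(m6 * dl)) + 2 * (n * √(m4 * zl)) := by
  have hE := Ew_one_pos (q := q) h hq.x0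
  rw [En_sum, div_le_iff₀ hE]
  exact (hrow1 h hq hP hI).trans (hN.err h hq.x0)

/-- **(T4)**, time `s2`, normalized -/
theorem hrow2_n (h : C11 F D B L) (hq : q.Ok) (hP : PrS S q F M δ)
    (hI : HIn q F (A2 S q) M M2 ζ lam) (hN : HNb q F M δ M2 ζ lam m6 dl m4 zl ls) :
    ∑ b, ∑ b' ∈ Finset.univ.erase b, En q F (fun w => hd2 S q b b' w ^ 2) ≤
      4 * (n ^ 2 * ls) + 8 * (n * √(m6 * dl)) + 2 * (n * √(m4 * zl)) := by
  have hE := Ew_one_pos (q := q) h hq.x0
  rw [En_sum, div_le_iff₀ hE]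
  exact (hrow2 h hq hP hI).trans (hN.err h hq.x0)

end Vale.Agent.P146.R1S
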