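import Vale.Agent.P146.H645.CS0

/-!
Plan R1, block C in system form: the objects of `R1C` (helper332's `CDef`) for an abstract cavity
system `S : CS n k x` in the place of the SK model. The general part of `R1C` (`Par`, `P0`..`P3`,
`lf`, `AvP`, `dens`, `Ew`, `En`, `put`) is unchanged; the names which depend on the model are
repeated here with `S` in the place of `k x` (resp. `k`).
-/

open MeasureTheory ProbabilityTheory

namespace Vale.Agent.P146.R1S

open Vale.Agent.P157.Lv Vale.Agent.P146.H425 Vale.Agent.P146.H325 Vale.Agent.P146.H332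
  Vale.Agent.P146.H712 Vale.Agent.P146.H816 Vale.Agent.P146.R1 Vale.Agent.P146.R1C Matrix

set_option linter.unusedSectionVars false

variable {n : ℕ} {k x : ℝ} (S : CS n k x) (s : ℝ)

/-- The clean column of `b`: the row of `b'` is averaged. -/
noncomputable def cl (b b' : Fin n) (z : Pair n → ℝ) (i : Fin n) : ℝ :=
  AvP s (row b') (fun z => S.A s z i b) z

/-- The clean column, restricted to the bulk sites. -/
noncomputable def cl0 (b b' : Fin n) (z : Pair n → ℝ) (i : Fin n) : ℝ :=
  if i = b ∨ i = b' then 0 else cl S s b b' z i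

/-- The mean gradient of the clean column. -/
noncomputable def MM (b b' : Fin n) (z : Pair n → ℝ) : Matrix (Fin n) (Fin n) ℝ :=
  fun i j => k * AvP s (row b ∪ row b') (fun z => S.H s b z i j) z

/-- `E_y |a|²` -/
noncomputable def ee (b b' : Fin n) (z : Pair n → ℝ) : ℝ :=
  AvP s (row b ∪ row b') (fun z => ∑ i, cl0 S s b b' z i ^ 2) z

/-- `a`, function of the coordinates -/
noncomputable def Ca (q : Par) (b b' : Fin n) (w : K4 (Pair n) → ℝ) : Fin n → ℝ :=
  cl0 S q.s1 b b' (P2 q w)

/-- `d`, function of the coordinates -/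
noncomputable def Cd (q : Par) (b b' : Fin n) (w : K4 (Pair n) → ℝ) : Fin n → ℝ :=
  cl0 S q.s2 b b' (P3 q w)

/-- `S_a` -/
noncomputable def Sa (q : Par) (b b' : Fin n) (w : K4 (Pair n) → ℝ) :
    Matrix (Fin n) (Fin n) ℝ :=
  fun i j => Av (lf (row b ∪ row b')) (fun w => Ca S q b b' w i * Ca S q b b' w j) w

/-- `S_d` -/
noncomputable def Sd (q : Par) (b b' : Fin n) (w : K4 (Pair n) → ℝ) :
    Matrix (Fin n) (Fin n) ℝ :=
  fun i j => Av (lf (row b ∪ row b')) (fun w => Cd S q b b' w i * Cd S q b b' w j) w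

/-- `N = E a d'` -/
noncomputable def Nd (q : Par) (b b' : Fin n) (w : K4 (Pair n) → ℝ) :
    Matrix (Fin n) (Fin n) ℝ :=
  fun i j => Av (lf (row b ∪ row b')) (fun w => Ca S q b b' w i * Cd S q b b' w j) w

/-- `G` -/
noncomputable def Gb (q : Par) (b b' : Fin n) (w : K4 (Pair n) → ℝ) : ℝ :=
  ip (Sa S q b b' w) (Sd S q b b' w) - fr (Nd S q b b' w)

end Vale.Agent.P146.R1S
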