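import Vale.Agent.P146.H425.Ut
import Vale.Agent.P146.H332.Fe

/-!
Monotonicity, convexity and comparison properties of the layer functional `W`, and the deep
functional: finitely many additional layers with exponents in `(0, 1]`.
-/

open MeasureTheory ProbabilityTheory

namespace Vale.Agent.P146.H941

open Vale.Agent.P157.Lv Vale.Agent.P146.H425 Vale.Agent.P146.H325 Vale.Agent.P146.H332

set_option linter.unusedSectionVars false

variable {κ : Type} [Fintype κ] {F G : (κ → ℝ) → ℝ} {D : κ → (κ → ℝ) → ℝ} {B B' L x y s : ℝ}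

/-- monotonicity in the function -/
lemma W_mono (h : LipB F B) (hB : 0 ≤ B) (h' : LipB G B') (hB' : 0 ≤ B') (hx : 0 < x)
    (hle : ∀ z, F z ≤ G z) (z : κ → ℝ) : W x s F z ≤ W x s G z := by
  unfold W
  refine mul_le_mul_of_nonneg_left (Real.log_le_log (h.pos hB z s x) ?_) (by positivity)
  refine integral_mono (h.int_exp hB z s x) (h'.int_exp hB' z s x) fun w => ?_
  exact Real.exp_le_exp.2 (mul_le_mul_of_nonneg_left (hle _) hx.le)

/-- constants -/
lemma W_add_const (h : LipB F B) (hB : 0 ≤ B) (hx : 0 < x) (c : ℝ) (z : κ → ℝ) :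
    W x s (fun z => F z + c) z = W x s F z + c := by
  unfold W
  have e : ∀ w, Real.exp (x * (F (z + s • w) + c)) =
      Real.exp (x * F (z + s • w)) * Real.exp (x * c) := fun w => by
    rw [← Real.exp_add]
    congr 1
    ring
  simp only [e]
  rw [integral_mul_const, Real.log_mul (h.pos hB z s x).ne' (Real.exp_pos _).ne', Real.log_exp]
  field_simp

/-- monotonicity in the exponent -/
lemma W_mono_exp (h : LipB F B) (hB : 0 ≤ B) (hx : 0 < x) (hxy : x ≤ y) (z : κ → ℝ) :
    W x s F z ≤ W y s F z := by
  have hy : 0 < y := hx.trans_le hxy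
  set c := W x s F z with hc
  have h1 : ∫ w, Real.exp (x * (F (z + s • w) - c)) ∂(gI κ) = 1 := by
    have e : ∀ w, Real.exp (x * (F (z + s • w) - c)) =
        Real.exp (x * F (z + s • w)) * Real.exp (-(x * c)) := fun w => by
      rw [← Real.exp_add]
      congr 1
      ring
    simp only [e]
    rw [integral_mul_const, ← h.exp_W hB hx, ← Real.exp_add, ← hc]
    simp
  have i1 : Integrable (fun w => Real.exp (x * (F (z + s • w) - c))) (gI κ) := by
    have e : (fun w => Real.exp (x * (F (z + s • w) - c))) = fun w =>
        Real.exp (x * F (z + s • w)) * Real.exp (-(x * c)) := by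
      funext w
      rw [← Real.exp_add]
      congr 1
      ring
    rw [e]
    exact (h.int_exp hB z s x).mul_const _
  have i2 : Integrable (fun w => Real.exp (y * (F (z + s • w) - c))) (gI κ) := by
    have e : (fun w => Real.exp (y * (F (z + s • w) - c))) = fun w =>
        Real.exp (y * F (z + s • w)) * Real.exp (-(y * c)) := by
      funext w
      rw [← Real.exp_add]
      congr 1
      ring
    rw [e]
    exact (h.int_exp hB z s y).mul_const _
  have h2 : 1 ≤ ∫ w, Real.exp (y * (F (z + s • w) - c)) ∂(gI κ) := by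
    have h3 : ∫ w, ((1 - y / x) + y / x * Real.exp (x * (F (z + s • w) - c))) ∂(gI κ) = 1 := by
      rw [integral_add (integrable_const _) (i1.const_mul _), integral_const_mul, h1]
      simp
    rw [← h3]
    refine integral_mono ((integrable_const _).add (i1.const_mul _)) i2 fun w => ?_
    simp only
    have h4 := one_add_mul_self_le_rpow_one_add
      (s := Real.exp (x * (F (z + s • w) - c)) - 1) (by linarith [Real.exp_pos (x * (F (z + s • w) - c))])
      (p := y / x) (by rw [le_div_iff₀ hx]; linarith)
    have h5 : (1 + (Real.exp (x * (F (z + s • w) - c)) - 1)) ^ (y / x) =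
        Real.exp (y * (F (z + s • w) - c)) := by
      rw [add_sub_cancel, ← Real.exp_mul]
      congr 1
      field_simp
    rw [h5] at h4
    linarith
  have h6 : Real.exp (y * (W y s F z - c)) = ∫ w, Real.exp (y * (F (z + s • w) - c)) ∂(gI κ) := by
    have e : ∀ w, Real.exp (y * (F (z + s • w) - c)) =
        Real.exp (y * F (z + s • w)) * Real.exp (-(y * c)) := fun w => by
      rw [← Real.exp_add]
      congr 1
      ring
    simp only [e]
    rw [integral_mul_const, ← h.exp_W hB hy, ← Real.exp_add]
    congr 1
    ring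
  rw [← h6] at h2
  have h7 := Real.one_le_exp_iff.1 h2
  have h8 := nonneg_of_mul_nonneg_right h7 hy
  linarith

/-- convexity -/
lemma cv_W (h : C11 F D B L) (hc : Cv F) (hx : 0 < x) (s : ℝ) : Cv (W x s F) := by
  intro a b ha hb hab y0 y1
  have e : ∀ y, W x s F y = W x 1 (fun w => F (y + s • w)) 0 := fun y => by
    unfold W
    simp
  rw [e, e, e]
  have h0 := h.shift (a • y0 + b • y1) s
  have h1 := h.shift y0 s
  have h2 := h.shift y1 s
  have h3 := layer (x0 := x) (x1 := x) h0 h1.lip h1.B0 h2.lip h2.B0 hx hx ha hb hab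
    (fun w0 w1 => by
      have h4 := hc a b ha hb hab (y0 + s • w0) (y1 + s • w1)
      refine le_trans (le_of_eq ?_) h4
      congr 1
      funext e
      simp only [Pi.add_apply, Pi.smul_apply, smul_eq_mul]
      ring) 0 0
  have h5 : a * x + b * x = x := by rw [← add_mul, hab, one_mul]
  rw [h5] at h3
  simpa using h3

/-- the layer functional increases a convex function -/
lemma le_W (h : C11 F D B L) (hc : Cv F) (hx : 0 < x) (s : ℝ) (z : κ → ℝ) : F z ≤ W x s F z := by
  have h1 := lower_step (s := s) h.lip h.B0 hx z 0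
  simp only [smul_zero, add_zero, Pi.zero_apply, ne_eq, OfNat.ofNat_ne_zero, not_false_eq_true,
    zero_pow, Finset.sum_const_zero, mul_zero, sub_zero] at h1
  refine le_trans ?_ h1
  have hm : Measurable F := h.eg.meas
  have i0 : Integrable (fun w => F (z + s • w)) (gI κ) := (EG.add_smul h.eg z s).integrable
  have h2 := int_flip (ε := fun _ : κ => (-1 : ℝ)) (fun _ => by norm_num)
    (F := fun w => F (z + s • w)) (hm.comp (by fun_prop))
  have i1 : Integrable (fun w : κ → ℝ => F (z + s • fun i => -1 * w i)) (gI κ) := by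
    have e : (fun w : κ → ℝ => F (z + s • fun i => -1 * w i)) = fun w => F (z + (-s) • w) := by
      funext w
      congr 1
      funext e
      simp
    rw [e]
    exact (EG.add_smul h.eg z (-s)).integrable
  have h3 : ∫ w, F z ∂(gI κ) ≤ ∫ w, ((1 / 2) * F (z + s • w) +
      (1 / 2) * F (z + s • fun i => -1 * w i)) ∂(gI κ) := by
    refine integral_mono (integrable_const _) ((i0.const_mul _).add (i1.const_mul _)) fun w => ?_
    have h4 := hc (1 / 2) (1 / 2) (by norm_num) (by norm_num) (by norm_num) (z + s • w)
      (z + s • fun i => -1 * w i)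
    refine le_trans (le_of_eq ?_) h4
    congr 1
    funext e
    simp only [Pi.add_apply, Pi.smul_apply, smul_eq_mul]
    ring
  rw [integral_add (i0.const_mul _) (i1.const_mul _), integral_const_mul, integral_const_mul,
    h2] at h3
  simp only [integral_const, probReal_univ, smul_eq_mul, one_mul] at h3
  linarith

/-- invariance under a measure preserving linear map -/
lemma W_inv {A : (κ → ℝ) → κ → ℝ} (hA : MeasurePreserving A (gI κ) (gI κ))
    (hadd : ∀ y w, A (y + s • w) = A y + s • A w) (hF : Measurable F)
    (hinv : ∀ z, F (A z) = F z) (z : κ → ℝ) : W x s F (A z) = W x s F z := by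
  unfold W
  congr 2
  have hm : Measurable fun w => Real.exp (x * F (A z + s • w)) :=
    Real.measurable_exp.comp ((hF.comp (by fun_prop)).const_mul x)
  have h1 : ∫ w, Real.exp (x * F (A z + s • w)) ∂(gI κ) =
      ∫ w, Real.exp (x * F (A z + s • A w)) ∂(gI κ) := by
    conv_lhs => rw [← hA.map_eq]
    rw [integral_map hA.measurable.aemeasurable]
    rw [hA.map_eq]
    exact hm.aestronglyMeasurable
  rw [h1]
  simp only [← hadd, hinv]

/-- exponential moments of linear functions -/
lemma int_exp_lin (c : κ → ℝ) : ∫ z, Real.exp (∑ e, c e * z e) ∂(gI κ) =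
    Real.exp ((∑ e, c e ^ 2) / 2) := by
  have h := gI_shift (-c) (fun _ : κ → ℝ => (1 : ℝ))
  simp only [integral_const, probReal_univ, smul_eq_mul, mul_one, Pi.neg_apply, neg_mul,
    Finset.sum_neg_distrib, neg_neg, neg_sq, Real.exp_sub] at h
  rw [integral_div, eq_div_iff (Real.exp_pos _).ne'] at h
  linarith

end Vale.Agent.P146.H941
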