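import Vale.Agent.P146.H941.DeepT
import Vale.Agent.P146.H713.DeepDef
import Vale.Agent.P146.H713.SkC2

/-!
The Gibbs measure as a root law, and the root laws of the deep functionals.
-/

open MeasureTheory ProbabilityTheory

namespace Vale.Agent.P146.H941

open Vale.Agent.P157.Lv Vale.Agent.P146.H425 Vale.Agent.P146.H785 Vale.Agent.P146.H325
  Vale.Agent.P146.H332 Vale.Agent.P146.R1

set_option linter.unusedSectionVars false

section

variable {ι : Type} [Fintype ι] [DecidableEq ι] {X : Type} [Fintype X] [Nonempty X]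
variable (k : ℝ) (S : ι → X → ℝ)

/-- the Gibbs measure -/
noncomputable def gm (u : ι → ℝ) (σ : X) : ℝ := ez k S u σ / Zp k S u

lemma av_gm (h : X → ℝ) (u : ι → ℝ) : av k S h u = ∑ σ, gm k S u σ * h σ := by
  unfold av gm
  rw [Finset.sum_div]
  exact Finset.sum_congr rfl fun σ _ => by ring

open Classical in
lemma gm_eq (u : ι → ℝ) (σ : X) : gm k S u σ = av k S (fun τ => if τ = σ then 1 else 0) u := by
  rw [av_gm]
  simp

/-- **The Gibbs measure is a root law with the exponent one.** -/
theorem rt_lz : Rt k 1 S (lz k S) (Dz k S) (Hz k S) (gm k S) (Kb k S) (3 * Kb k S ^ 2)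
    (2 * Kb k S ^ 2) where
  c2 := c2_lz k S
  m0 z σ := div_nonneg (ez_pos k S z σ).le (Zp_pos k S z).le
  m1 z := by
    have h := av_gm k S (fun _ => 1) z
    rw [av_one] at h
    simpa using h.symm
  meas σ := by
    classical
    have e : (fun z => gm k S z σ) = av k S (fun τ => if τ = σ then 1 else 0) := by
      funext z
      exact gm_eq k S z σ
    rw [e]
    exact (eg_av k S _).meas
  dm e z := by
    show k * av k S (S e) z = _
    rw [av_gm]
  kov z w := by
    rw [one_mul]
    have e1 : ∑ e, Dz k S e z * w e = k * av k S (fun σ => ∑ e, S e σ * w e) z := by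
      rw [av_gm]
      unfold Dz
      simp only [av_gm, Finset.mul_sum, Finset.sum_mul]
      rw [Finset.sum_comm]
      exact Finset.sum_congr rfl fun σ _ => Finset.sum_congr rfl fun e _ => by ring
    have e2 : ∑ e, ∑ f, Hz k S e f z * w e * w f =
        k ^ 2 * ∑ σ, gm k S z σ * (∑ e, S e σ * w e) ^ 2 -
          (∑ e, Dz k S e z * w e) ^ 2 := by
      have e3 : ∑ σ, gm k S z σ * (∑ e, S e σ * w e) ^ 2 =
          ∑ e, ∑ f, av k S (fun σ => S e σ * S f σ) z * w e * w f := by
        simp only [av_gm, Finset.sum_mul, Finset.mul_sum, _root_.sq]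
        rw [Finset.sum_comm]
        refine Finset.sum_congr rfl fun e _ => ?_
        rw [Finset.sum_comm]
        exact Finset.sum_congr rfl fun f _ => Finset.sum_congr rfl fun σ _ => by ring
      have e4 : (∑ e, Dz k S e z * w e) ^ 2 =
          k ^ 2 * ∑ e, ∑ f, w e * (av k S (S e) z * av k S (S f) z) * w f :=
        quad_id k (fun e => av k S (S e) z) w
      rw [e3, e4, ← mul_sub, ← Finset.sum_sub_distrib, Finset.mul_sum]
      refine Finset.sum_congr rfl fun e _ => ?_
      rw [← Finset.sum_sub_distrib, Finset.mul_sum]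
      refine Finset.sum_congr rfl fun f _ => ?_
      unfold Hz
      ring
    rw [e2]

end

section deep

variable {κ X : Type} [Fintype κ] [Fintype X] {S : κ → X → ℝ} {F : (κ → ℝ) → ℝ}
  {D : κ → (κ → ℝ) → ℝ} {H : κ → κ → (κ → ℝ) → ℝ} {mu : (κ → ℝ) → X → ℝ}
  {k y B L B2 : ℝ} {m σ : ℕ → ℝ}

/-- **The deep functionals have root laws**, with the last exponent. -/
theorem rt_FD (h : Rt k y S F D H mu B L B2) {e : ℕ → ℝ} (he0 : e 0 = y)
    (he : ∀ i, e (i + 1) = m i) {J : ℕ} (h0 : ∀ i < J, 0 < m i) (h1 : ∀ i < J, m i ≤ e i) :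
    ∀ i ≤ J, ∃ L' B2', Rt k (e i) S (FD F m σ i) (fun a => TD F m σ (D a) i)
      (fun a b => KD F m σ (H a b) (D a) (D b) i)
      (fun z τ => TD F m σ (fun u => mu u τ) i z) B L' B2' := by
  intro i
  induction i with
  | zero =>
    intro _
    rw [he0]
    exact ⟨L, B2, h⟩
  | succ i ih =>
    intro hi
    obtain ⟨L', B2', h2⟩ := ih (by omega)
    have h3 := h2.W (h0 i (by omega)) (h1 i (by omega)) (σ i)
    refine ⟨L' + 2 * m i * (Fintype.card κ * B) ^ 2, B2' + 2 * m i * B ^ 2, ?_⟩
    rw [he i]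
    exact h3

end deep

end Vale.Agent.P146.H941
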