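import Vale.Agent.P146.H327.Avg2

set_option linter.all false

/-!
Good configurations with a lower bound on the sorted values: with `L = J q`, for a quarter of all
the configurations `u : Fin k → Fin L`, the sorted values satisfy `(i + 1) L ≤ 8 k w_i` for `i ≥ 1`.
-/

open Finset

namespace Vale.Agent.P146.Gp.Avg

/-- The number of the small values. -/
theorem card_small (k L i : ℕ) (hk : 0 < k) :
    8 * k * (univ.filter fun x : Fin L => 8 * k * ((x : ℕ) + 1) < (i + 1) * L).card ≤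
      (i + 1) * L := by
  obtain ⟨T, hT⟩ : ∃ T, T = ((i + 1) * L) / (8 * k) := ⟨_, rfl⟩
  have h8 : 0 < 8 * k := by omega
  have h1 : (univ.filter fun x : Fin L => 8 * k * ((x : ℕ) + 1) < (i + 1) * L).card ≤ T := by
    have h2 : (univ.filter fun x : Fin L => 8 * k * ((x : ℕ) + 1) < (i + 1) * L).card ≤
        (range T).card := by
      refine Finset.card_le_card_of_injOn (fun x => (x : ℕ)) ?_ ?_
      · intro x hx
        have hx' := (Finset.mem_filter.1 (Finset.mem_coe.1 hx)).2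
        have h3 : (x : ℕ) + 1 ≤ T := by
          rw [hT, Nat.le_div_iff_mul_le h8]
          have e : ((x : ℕ) + 1) * (8 * k) = 8 * k * ((x : ℕ) + 1) := by ring
          rw [e]
          exact hx'.le
        exact Finset.mem_coe.2 (Finset.mem_range.2 h3)
      · intro x _ y _ h
        exact Fin.ext h
    rwa [Finset.card_range] at h2
  refine (Nat.mul_le_mul_left _ h1).trans ?_
  rw [hT]
  exact Nat.mul_div_le _ _

theorem exp_seven : Real.exp (7 / 8) ≤ 8 / 3 := by
  have h1 : Real.exp (7 / 8) * Real.exp (1 / 8) = Real.exp 1 := by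
    rw [← Real.exp_add]
    norm_num
  have h2 := Real.exp_one_lt_d9
  have h3 : (1 : ℝ) / 8 + 1 ≤ Real.exp (1 / 8) := Real.add_one_le_exp _
  have h4 := Real.exp_pos (7 / 8)
  nlinarith

/-- Chernoff: the number of the configurations with `i + 1` small values. -/
theorem card_bad (k L i : ℕ) (hk : 0 < k) :
    (((univ.filter fun u : Fin k → Fin L =>
      i + 1 ≤ (univ.filter fun a : Fin k => 8 * k * ((u a : ℕ) + 1) < (i + 1) * L).card).card : ℕ) :
        ℝ) ≤ (1 / 3) ^ (i + 1) * (L : ℝ) ^ k := by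
  obtain ⟨A, hA⟩ : ∃ A : Finset (Fin L), A = univ.filter fun x : Fin L =>
    8 * k * ((x : ℕ) + 1) < (i + 1) * L := ⟨_, rfl⟩
  obtain ⟨f, hf⟩ : ∃ f : Fin L → ℝ, f = fun x => if x ∈ A then 8 else 1 := ⟨_, rfl⟩
  have hk0 : (0 : ℝ) < k := by exact_mod_cast hk
  have hcA : 8 * (k : ℝ) * A.card ≤ (i + 1) * L := by
    have := card_small k L i hk
    rw [← hA] at this
    exact_mod_cast this
  have hsum : ∑ x, f x = L + 7 * A.card := by
    have e : ∀ x, f x = 1 + 7 * (if x ∈ A then (1 : ℝ) else 0) := by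
      intro x
      rw [hf]
      by_cases h : x ∈ A
      · simp only [h, if_true]; norm_num
      · simp only [h, if_false]; norm_num
    simp_rw [e]
    rw [Finset.sum_add_distrib, ← Finset.mul_sum, Finset.sum_ite_mem, Finset.univ_inter]
    simp
  have hpow : (∑ x, f x) ^ k = ∑ u : Fin k → Fin L, ∏ a, f (u a) := by
    rw [Fintype.sum_pow]
  have hprod : ∀ u : Fin k → Fin L, ∏ a, f (u a) =
      8 ^ (univ.filter fun a : Fin k => 8 * k * ((u a : ℕ) + 1) < (i + 1) * L).card := by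
    intro u
    have e : ∀ a, f (u a) = if 8 * k * ((u a : ℕ) + 1) < (i + 1) * L then (8 : ℝ) else 1 := by
      intro a
      rw [hf, hA]
      simp only [Finset.mem_filter, Finset.mem_univ, true_and]
    simp_rw [e]
    rw [Finset.prod_ite, Finset.prod_const, Finset.prod_const_one, mul_one]
  have hone : ∀ u : Fin k → Fin L, 1 ≤ ∏ a, f (u a) := by
    intro u
    rw [hprod]
    exact one_le_pow₀ (by norm_num)
  have h1 : (8 : ℝ) ^ (i + 1) * ((univ.filter fun u : Fin k → Fin L =>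
      i + 1 ≤ (univ.filter fun a : Fin k => 8 * k * ((u a : ℕ) + 1) < (i + 1) * L).card).card :
        ℝ) ≤ (L + 7 * A.card) ^ k := by
    rw [← hsum, hpow, mul_comm, ← nsmul_eq_mul, ← Finset.sum_const]
    refine (Finset.sum_le_sum (g := fun u : Fin k → Fin L => ∏ a, f (u a)) fun u hu => ?_).trans
      (Finset.sum_le_sum_of_subset_of_nonneg (Finset.subset_univ _) fun u _ _ =>
        zero_le_one.trans (hone u))
    have hu' := (Finset.mem_filter.1 hu).2
    show (8 : ℝ) ^ (i + 1) ≤ ∏ a, f (u a)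
    rw [hprod]
    exact pow_le_pow_right₀ (by norm_num) hu'
  rcases Nat.eq_zero_or_pos L with hL | hL
  · subst hL
    have hA0 : A.card = 0 := by
      rw [Finset.card_eq_zero]
      exact Finset.eq_empty_of_isEmpty A
    rw [hA0] at h1
    have hk' : k ≠ 0 := by omega
    have e0 : (((0 : ℕ) : ℝ) + 7 * ((0 : ℕ) : ℝ)) ^ k = 0 := by
      rw [Nat.cast_zero, mul_zero, add_zero]
      exact zero_pow hk'
    rw [e0] at h1
    have h8 : (0 : ℝ) < 8 ^ (i + 1) := by positivity
    refine le_trans ?_ (show (0 : ℝ) ≤ (1 / 3) ^ (i + 1) * ((0 : ℕ) : ℝ) ^ k by positivity)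
    by_contra h
    have := mul_pos h8 (not_le.1 h)
    linarith
  have hL0 : (0 : ℝ) < L := by exact_mod_cast hL
  have h2 : ((L : ℝ) + 7 * A.card) ^ k ≤ (L : ℝ) ^ k * Real.exp (7 / 8) ^ (i + 1) := by
    have e1 : (L : ℝ) + 7 * A.card = L * (1 + 7 * A.card / L) := by field_simp
    have h3 : 1 + 7 * (A.card : ℝ) / L ≤ Real.exp (7 * A.card / L) := by
      rw [add_comm]
      exact Real.add_one_le_exp _
    have h4 : (1 + 7 * (A.card : ℝ) / L) ^ k ≤ Real.exp (7 / 8) ^ (i + 1) := by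
      refine (pow_le_pow_left₀ (by positivity) h3 k).trans ?_
      rw [← Real.exp_nat_mul, ← Real.exp_nat_mul]
      refine Real.exp_le_exp.2 ?_
      have h5 : (k : ℝ) * (7 * A.card / L) = 7 / 8 * ((8 * k * A.card) / L) := by ring
      have h6 : (8 * (k : ℝ) * A.card) / L ≤ i + 1 := by
        rw [div_le_iff₀ hL0]
        exact hcA
      rw [h5]
      push_cast
      linarith
    rw [e1, mul_pow]
    exact mul_le_mul_of_nonneg_left h4 (by positivity)
  have h3 : Real.exp (7 / 8) ^ (i + 1) ≤ (8 / 3) ^ (i + 1) :=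
    pow_le_pow_left₀ (Real.exp_pos _).le exp_seven _
  have h4 : (8 : ℝ) ^ (i + 1) * ((univ.filter fun u : Fin k → Fin L =>
      i + 1 ≤ (univ.filter fun a : Fin k => 8 * k * ((u a : ℕ) + 1) < (i + 1) * L).card).card :
        ℝ) ≤ (L : ℝ) ^ k * (8 / 3) ^ (i + 1) :=
    h1.trans (h2.trans (mul_le_mul_of_nonneg_left h3 (by positivity)))
  have h5 : (8 / 3 : ℝ) ^ (i + 1) = 8 ^ (i + 1) * (1 / 3) ^ (i + 1) := by
    rw [← mul_pow]
    norm_num
  rw [h5] at h4
  have h8 : (0 : ℝ) < 8 ^ (i + 1) := by positivity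
  refine le_of_mul_le_mul_left (h4.trans (le_of_eq ?_)) h8
  ring

/-- The geometric sum. -/
theorem geo_sum (k : ℕ) : ∑ i : Fin k, (if 1 ≤ (i : ℕ) then ((1 : ℝ) / 3) ^ ((i : ℕ) + 1) else 0) ≤
    1 / 4 := by
  have h1 : ∑ i : Fin k, (if 1 ≤ (i : ℕ) then ((1 : ℝ) / 3) ^ ((i : ℕ) + 1) else 0) =
      ∑ i ∈ range k, (if 1 ≤ i then ((1 : ℝ) / 3) ^ (i + 1) else 0) :=
    Fin.sum_univ_eq_sum_range (fun i => if 1 ≤ i then ((1 : ℝ) / 3) ^ (i + 1) else 0) k
  have key : ∀ k : ℕ, ∑ i ∈ range k, (if 1 ≤ i then ((1 : ℝ) / 3) ^ (i + 1) else 0) ≤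
      1 / 4 - (if 1 ≤ k then 1 / 2 * ((1 : ℝ) / 3) ^ k else 0) ∨ k = 0 := by
    intro k
    induction k with
    | zero => right; rfl
    | succ k ih =>
      left
      rw [Finset.sum_range_succ]
      rcases Nat.eq_zero_or_pos k with h | h
      · subst h
        norm_num
      · have h2 : 1 ≤ k := h
        rcases ih with ih | ih
        · rw [if_pos h2] at ih
          rw [if_pos h2, if_pos (by omega)]
          have e : ((1 : ℝ) / 3) ^ (k + 1) = (1 / 3) ^ k * (1 / 3) := pow_succ _ _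
          rw [e]
          have h3 : (0 : ℝ) < (1 / 3) ^ k := by positivity
          linarith
        · omega
  rw [h1]
  rcases key k with h | h
  · have h2 : (0 : ℝ) ≤ if 1 ≤ k then 1 / 2 * ((1 : ℝ) / 3) ^ k else 0 := by
      split_ifs
      · positivity
      · exact le_rfl
    linarith
  · subst h
    norm_num

/-- **[C2]** Good configurations with a lower bound on the sorted values. -/
theorem exists_good2 (k J q : ℕ) (hJ : 0 < J) (hq : 0 < q) (h1 : 4 * k ^ 2 ≤ J * q)
    (h2 : 4 * (J : ℝ) * Real.exp (-((k : ℝ) / J)) ≤ 1) :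
    ∃ G : Finset (Fin k → Fin (J * q)), G ⊆ Gset k J q ∧
      1 / 4 * ((J * q : ℕ) : ℝ) ^ k ≤ (G.card : ℝ) ∧
      ∀ u ∈ G, ∀ i : Fin k, 1 ≤ (i : ℕ) →
        ((i : ℕ) + 1 : ℝ) * (J * q : ℕ) ≤ 8 * k * (srt (vl u) i : ℝ) := by
  have h3 := card_good k J q hJ hq h1 h2
  obtain ⟨L, hL⟩ : ∃ L, L = J * q := ⟨_, rfl⟩
  obtain ⟨bad, hbad⟩ : ∃ bad : Fin k → Finset (Fin k → Fin (J * q)), bad = fun i : Fin k =>
    if 1 ≤ (i : ℕ) then univ.filter fun u : Fin k → Fin (J * q) =>
      (i : ℕ) + 1 ≤ (univ.filter fun a : Fin k =>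
        8 * k * ((u a : ℕ) + 1) < ((i : ℕ) + 1) * (J * q)).card else ∅ := ⟨_, rfl⟩
  refine ⟨Gset k J q \ univ.biUnion bad, Finset.sdiff_subset, ?_, ?_⟩
  · have h4 : ((univ.biUnion bad).card : ℝ) ≤ 1 / 4 * ((J * q : ℕ) : ℝ) ^ k := by
      have h5 : ((univ.biUnion bad).card : ℝ) ≤ ∑ i, ((bad i).card : ℝ) := by
        exact_mod_cast Finset.card_biUnion_le
      refine h5.trans ?_
      have h6 : ∀ i ∈ (univ : Finset (Fin k)), ((bad i).card : ℝ) ≤
          (if 1 ≤ (i : ℕ) then ((1 : ℝ) / 3) ^ ((i : ℕ) + 1) else 0) *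
            ((J * q : ℕ) : ℝ) ^ k := by
        intro i _
        rw [hbad]
        by_cases hi : 1 ≤ (i : ℕ)
        · simp only [hi, if_true]
          exact card_bad k (J * q) i (Fin.pos i)
        · simp only [hi, if_false, Finset.card_empty, Nat.cast_zero, zero_mul, le_refl]
      refine (Finset.sum_le_sum h6).trans ?_
      rw [← Finset.sum_mul]
      exact mul_le_mul_of_nonneg_right (geo_sum k) (by positivity)
    have h5 : (Gset k J q).card ≤ (Gset k J q \ univ.biUnion bad).card +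
        (univ.biUnion bad).card := Finset.card_le_card_sdiff_add_card
    have h6 : ((Gset k J q).card : ℝ) ≤ ((Gset k J q \ univ.biUnion bad).card : ℝ) +
        ((univ.biUnion bad).card : ℝ) := by exact_mod_cast h5
    have h7 : (0 : ℝ) ≤ ((J * q : ℕ) : ℝ) ^ k := by positivity
    linarith
  · intro u hu i hi
    have hu2 := (Finset.mem_sdiff.1 hu).2
    by_contra hcon
    apply hu2
    rw [Finset.mem_biUnion]
    refine ⟨i, mem_univ _, ?_⟩
    rw [hbad]
    simp only [hi, if_true, Finset.mem_filter, Finset.mem_univ, true_and]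
    have hlt : 8 * k * srt (vl u) i < ((i : ℕ) + 1) * (J * q) := by
      have h4 := not_le.1 hcon
      exact_mod_cast h4
    have h5 : (univ.filter fun p : Fin k => p ≤ i).card ≤ (univ.filter fun a : Fin k =>
        8 * k * ((u a : ℕ) + 1) < ((i : ℕ) + 1) * (J * q)).card := by
      refine Finset.card_le_card_of_injOn (fun p => Tuple.sort (vl u) p) ?_ ?_
      · intro p hp
        have hp' := (Finset.mem_filter.1 (Finset.mem_coe.1 hp)).2
        refine Finset.mem_coe.2 (Finset.mem_filter.2 ⟨mem_univ _, ?_⟩)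
        have h6 : srt (vl u) p ≤ srt (vl u) i := srt_mono _ hp'
        have h7 : srt (vl u) p = (u (Tuple.sort (vl u) p) : ℕ) + 1 := rfl
        rw [h7] at h6
        exact (Nat.mul_le_mul_left _ h6).trans_lt hlt
      · intro p _ p' _ h
        exact (Tuple.sort (vl u)).injective h
    have h6 : (univ.filter fun p : Fin k => p ≤ i).card = (i : ℕ) + 1 := by
      have e : (univ.filter fun p : Fin k => p ≤ i) = Finset.Iic i := by
        ext p
        simp
      rw [e, Fin.card_Iic]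
    omega

/-- **[C2]** The average over the good configurations of the increments of the slopes. -/
theorem Slp.avg_good2 {K J q : ℕ} {B : ℝ} {D : Fin K → (Fin K → ℕ) → ℝ}
    (hD : Slp K (J * q) B D) (hB : 0 ≤ B) {G : Finset (Fin K → Fin (J * q))}
    (hG : G ⊆ Gset K J q) (hc : 1 / 4 * ((J * q : ℕ) : ℝ) ^ K ≤ G.card) :
    ((J * q : ℕ) : ℝ) * ∑ u ∈ G, ∑ l, dD D (srt (vl u)) l ≤ 4 * K * B * G.card := by
  have h4 := hD.sum_all
  have h5 : ∑ u ∈ G, ∑ l, dD D (srt (vl u)) l ≤
      ∑ u : Fin K → Fin (J * q), ∑ i, Ev D (vl u) i := by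
    have h6 : ∑ u ∈ G, ∑ l, dD D (srt (vl u)) l = ∑ u ∈ G, ∑ i, Ev D (vl u) i := by
      refine Finset.sum_congr rfl fun u hu => ?_
      have hu' := (Finset.mem_filter.1 (hG hu)).2.1
      exact (Ev_sum (D := D) hu').symm
    rw [h6]
    exact Finset.sum_le_sum_of_subset_of_nonneg (Finset.subset_univ _)
      fun u _ _ => Finset.sum_nonneg fun i _ =>
        (hD.Ev_le (fun j => (vl_le u j).trans (Nat.le_succ _)) (vl_le u i)).1
  have h7 := mul_le_mul_of_nonneg_left h5 (Nat.cast_nonneg (α := ℝ) (J * q))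
  refine h7.trans (h4.trans ?_)
  have h8 : (K : ℝ) * ((J * q : ℕ) : ℝ) ^ K * B = 4 * K * B * (1 / 4 * ((J * q : ℕ) : ℝ) ^ K) := by
    ring
  rw [h8]
  exact mul_le_mul_of_nonneg_left hc (by positivity)

end Vale.Agent.P146.Gp.Avg
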