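import Vale.Agent.P146.H785.Hes
import Vale.Agent.P146.H332.M0

/-!
Functions with a root law: the gradient is an average over the root law and the covariance of the
root law is bounded by the Hessian. This class is stable under the layer functional, with a smaller
exponent; for pairs of sites it gives the bound for the four point functions.
-/

open MeasureTheory ProbabilityTheory

namespace Vale.Agent.P146.H941

open Vale.Agent.P157.Lv Vale.Agent.P146.H425 Vale.Agent.P146.H785

set_option linter.unusedSectionVars false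

section gen

variable {κ X : Type} [Fintype κ] [Fintype X] {S : κ → X → ℝ} {F : (κ → ℝ) → ℝ}
  {D : κ → (κ → ℝ) → ℝ} {H : κ → κ → (κ → ℝ) → ℝ} {mu : (κ → ℝ) → X → ℝ}
  {k y y' B L B2 : ℝ}

/-- The quadratic form of the Hessian of the layer functional. -/
lemma HW_qf (h : C2 F D H B L B2) (x s : ℝ) (y v : κ → ℝ) :
    ∑ e, ∑ f, HW x s F D H e f y * v e * v f =
      Ax x s F (fun u => ∑ e, ∑ f, H e f u * v e * v f) y +
      x * (Ax x s F (fun u => (∑ e, D e u * v e) * ∑ e, D e u * v e) y -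
        (∑ e, DW x s F D e y * v e) ^ 2) := by
  have hl := h.c1.lip
  have hB := h.c1.B0
  have e1 : Ax x s F (fun u => ∑ e, ∑ f, H e f u * v e * v f) y =
      ∑ e, ∑ f, Ax x s F (H e f) y * v e * v f := by
    rw [Ax_sum hl hB _ fun e _ => EG.sum _ fun f _ => by
      have := (h.egH e f).const_mul (v e * v f)
      refine (EG.mono this ?_ fun y => ?_)
      · exact ((h.meas e f).mul_const _).mul_const _
      · exact le_of_eq (by congr 1; ring)]
    refine Finset.sum_congr rfl fun e _ => ?_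
    rw [Ax_sum hl hB _ fun f _ => by
      have := (h.egH e f).const_mul (v e * v f)
      refine (EG.mono this ?_ fun y => ?_)
      · exact ((h.meas e f).mul_const _).mul_const _
      · exact le_of_eq (by congr 1; ring)]
    refine Finset.sum_congr rfl fun f _ => ?_
    have : (fun u => H e f u * v e * v f) = fun u => (v e * v f) * H e f u := by
      funext u; ring
    rw [this, Ax_const_mul]
    ring
  have e2 : Ax x s F (fun u => (∑ e, D e u * v e) * ∑ e, D e u * v e) y =
      ∑ e, ∑ f, Ax x s F (fun u => D e u * D f u) y * v e * v f := by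
    have h1 : (fun u => (∑ e, D e u * v e) * ∑ e, D e u * v e) =
        fun u => ∑ e, ∑ f, (v e * v f) * (D e u * D f u) := by
      funext u
      rw [Finset.sum_mul_sum]
      exact Finset.sum_congr rfl fun e _ => Finset.sum_congr rfl fun f _ => by ring
    rw [h1, Ax_sum hl hB _ fun e _ => EG.sum _ fun f _ => ((h.egD e).mul (h.egD f)).const_mul _]
    refine Finset.sum_congr rfl fun e _ => ?_
    rw [Ax_sum hl hB _ fun f _ => ((h.egD e).mul (h.egD f)).const_mul _]
    refine Finset.sum_congr rfl fun f _ => ?_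
    rw [Ax_const_mul]
    ring
  rw [e1, e2, sq, Finset.sum_mul_sum, ← Finset.sum_sub_distrib, Finset.mul_sum,
    ← Finset.sum_add_distrib]
  refine Finset.sum_congr rfl fun e _ => ?_
  rw [← Finset.sum_sub_distrib, Finset.mul_sum, ← Finset.sum_add_distrib]
  refine Finset.sum_congr rfl fun f _ => ?_
  unfold HW
  ring

/-- A function with a root law: the gradient is the mean of `k S e` and the covariance, times `y`,
is bounded by the Hessian. -/
structure Rt (k y : ℝ) (S : κ → X → ℝ) (F : (κ → ℝ) → ℝ) (D : κ → (κ → ℝ) → ℝ)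
    (H : κ → κ → (κ → ℝ) → ℝ) (mu : (κ → ℝ) → X → ℝ) (B L B2 : ℝ) : Prop where
  c2 : C2 F D H B L B2
  m0 : ∀ z σ, 0 ≤ mu z σ
  m1 : ∀ z, ∑ σ, mu z σ = 1
  meas : ∀ σ, Measurable fun z => mu z σ
  dm : ∀ e z, D e z = k * ∑ σ, mu z σ * S e σ
  kov : ∀ z w : κ → ℝ, y * (k ^ 2 * ∑ σ, mu z σ * (∑ e, S e σ * w e) ^ 2 -
    (∑ e, D e z * w e) ^ 2) ≤ ∑ e, ∑ f, H e f z * w e * w f

namespace Rt

variable (h : Rt k y S F D H mu B L B2)

include h in
lemma le_one (z : κ → ℝ) (σ : X) : mu z σ ≤ 1 := by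
  rw [← h.m1 z]
  exact Finset.single_le_sum (fun σ _ => h.m0 z σ) (Finset.mem_univ σ)

include h in
lemma eg (σ : X) : EG fun z => mu z σ := EG.of_bdd (h.meas σ) (C := 1) fun z => by
  rw [abs_of_nonneg (h.m0 z σ)]
  exact h.le_one z σ

include h in
lemma dsum (z w : κ → ℝ) : ∑ e, D e z * w e = k * ∑ σ, mu z σ * ∑ e, S e σ * w e := by
  simp only [h.dm, Finset.mul_sum, Finset.sum_mul]
  rw [Finset.sum_comm]
  exact Finset.sum_congr rfl fun σ _ => Finset.sum_congr rfl fun e _ => by ring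

include h in
/-- the covariance of the root law is nonnegative -/
lemma var_nonneg (z w : κ → ℝ) : 0 ≤ k ^ 2 * ∑ σ, mu z σ * (∑ e, S e σ * w e) ^ 2 -
    (∑ e, D e z * w e) ^ 2 := by
  rw [h.dsum z w, mul_pow, ← mul_sub]
  refine mul_nonneg (sq_nonneg k) (sub_nonneg.2 ?_)
  have h1 := Finset.sum_mul_sq_le_sq_mul_sq (Finset.univ : Finset X) (fun σ => √(mu z σ))
    (fun σ => √(mu z σ) * ∑ e, S e σ * w e)
  have e1 : ∀ σ, √(mu z σ) * (√(mu z σ) * ∑ e, S e σ * w e) = mu z σ * ∑ e, S e σ * w e := by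
    intro σ
    rw [← mul_assoc, Real.mul_self_sqrt (h.m0 z σ)]
  have e2 : ∀ σ, (√(mu z σ) * ∑ e, S e σ * w e) ^ 2 = mu z σ * (∑ e, S e σ * w e) ^ 2 := by
    intro σ
    rw [mul_pow, Real.sq_sqrt (h.m0 z σ)]
  have e3 : ∀ σ, √(mu z σ) ^ 2 = mu z σ := fun σ => Real.sq_sqrt (h.m0 z σ)
  simp only [e1, e2, e3, h.m1 z, one_mul] at h1
  exact h1

include h in
/-- a smaller exponent -/
theorem mono (hy' : y' ≤ y) : Rt k y' S F D H mu B L B2 :=
  ⟨h.c2, h.m0, h.m1, h.meas, h.dm, fun z w =>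
    (mul_le_mul_of_nonneg_right hy' (h.var_nonneg z w)).trans (h.kov z w)⟩

include h in
/-- **Stability under the layer functional.** -/
theorem W (hy0 : 0 < y') (hy' : y' ≤ y) (s : ℝ) :
    Rt k y' S (W y' s F) (DW y' s F D) (HW y' s F D H)
      (fun z σ => Ax y' s F (fun u => mu u σ) z) B (L + 2 * y' * (Fintype.card κ * B) ^ 2)
      (B2 + 2 * y' * B ^ 2) := by
  have hl := h.c2.c1.lip
  have hB := h.c2.c1.B0
  have em := h.eg
  have hD := h.c2.egD
  refine ⟨h.c2.W hy0 s, fun z σ => ?_, fun z => ?_, fun σ => Ax_meas hl hB (em σ) y' s,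
    fun e z => ?_, fun z w => ?_⟩
  · rw [← Ax_const hl hB 0 y' s z]
    exact Ax_mono hl hB (EG.const _) (em σ) (fun u => h.m0 u σ) y' s z
  · rw [← Ax_sum hl hB _ fun σ _ => em σ]
    have e1 : (fun u => ∑ σ, mu u σ) = fun _ => (1 : ℝ) := funext h.m1
    rw [e1]
    exact Ax_const hl hB 1 y' s z
  · rw [DW_eq]
    have e1 : D e = fun u => k * ∑ σ, S e σ * mu u σ := by
      funext u
      rw [h.dm]
      congr 1
      exact Finset.sum_congr rfl fun σ _ => mul_comm _ _
    rw [e1, Ax_const_mul, Ax_sum hl hB _ fun σ _ => (em σ).const_mul _]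
    congr 1
    refine Finset.sum_congr rfl fun σ _ => ?_
    rw [Ax_const_mul, mul_comm]
  · rw [HW_qf h.c2]
    have egS : EG fun u => k ^ 2 * ∑ σ, mu u σ * (∑ e, S e σ * w e) ^ 2 := by
      refine EG.const_mul _ (EG.sum _ fun σ _ => ?_)
      have h1 := (em σ).const_mul ((∑ e, S e σ * w e) ^ 2)
      refine (EG.mono h1 ((h.meas σ).mul_const _) fun z => le_of_eq (by rw [mul_comm]))
    have egD : EG fun u => ∑ e, D e u * w e := EG.sum _ fun e _ => by
      simpa [mul_comm] using (hD e).const_mul (w e)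
    have e1 : k ^ 2 * ∑ σ, Ax y' s F (fun u => mu u σ) z * (∑ e, S e σ * w e) ^ 2 =
        Ax y' s F (fun u => k ^ 2 * ∑ σ, mu u σ * (∑ e, S e σ * w e) ^ 2) z := by
      have e2 : (fun u => k ^ 2 * ∑ σ, mu u σ * (∑ e, S e σ * w e) ^ 2) =
          fun u => k ^ 2 * ∑ σ, (∑ e, S e σ * w e) ^ 2 * mu u σ := by
        funext u
        congr 1
        exact Finset.sum_congr rfl fun σ _ => mul_comm _ _
      rw [e2, Ax_const_mul, Ax_sum hl hB _ fun σ _ => (em σ).const_mul _]
      congr 1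
      refine Finset.sum_congr rfl fun σ _ => ?_
      rw [Ax_const_mul, mul_comm]
    rw [e1]
    set V : (κ → ℝ) → ℝ := fun u => k ^ 2 * ∑ σ, mu u σ * (∑ e, S e σ * w e) ^ 2 -
      (∑ e, D e u * w e) * ∑ e, D e u * w e with hV
    have egV : EG V := egS.sub (egD.mul egD)
    have e3 : Ax y' s F (fun u => k ^ 2 * ∑ σ, mu u σ * (∑ e, S e σ * w e) ^ 2) z =
        Ax y' s F V z + Ax y' s F (fun u => (∑ e, D e u * w e) * ∑ e, D e u * w e) z := by
      rw [← Ax_add hl hB egV (egD.mul egD)]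
      congr 1
      funext u
      simp only [hV]
      ring
    have h2 : y' * Ax y' s F V z ≤ Ax y' s F (fun u => ∑ e, ∑ f, H e f u * w e * w f) z := by
      rw [← Ax_const_mul]
      have egH : EG fun u => ∑ e, ∑ f, H e f u * w e * w f :=
        EG.sum _ fun e _ => EG.sum _ fun f _ => by
          have := (h.c2.egH e f).const_mul (w e * w f)
          refine (EG.mono this ?_ fun y => ?_)
          · exact ((h.c2.meas e f).mul_const _).mul_const _
          · exact le_of_eq (by congr 1; ring)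
      refine Ax_mono hl hB (egV.const_mul _) egH (fun u => ?_) y' s z
      have h3 := (h.mono hy').kov u w
      simp only [hV]
      nlinarith [h3]
    rw [e3]
    nlinarith [h2]

end Rt

end gen

/-! ### pairs of sites -/

section pairs

open Vale.Agent.P146.H325 Vale.Agent.P146.H332

variable {n : ℕ} {F : (Pair n → ℝ) → ℝ} {D : Pair n → (Pair n → ℝ) → ℝ}
  {H : Pair n → Pair n → (Pair n → ℝ) → ℝ} {mu : (Pair n → ℝ) → (Fin n → ℤˣ) → ℝ}
  {k y B L B2 : ℝ}

lemma quad_id {κ : Type} [Fintype κ] (k : ℝ) (a v : κ → ℝ) :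
    (∑ e, k * a e * v e) ^ 2 = k ^ 2 * ∑ e, ∑ f, v e * (a e * a f) * v f := by
  rw [sq, Finset.sum_mul_sum, Finset.mul_sum]
  refine Finset.sum_congr rfl fun e _ => ?_
  rw [Finset.mul_sum]
  exact Finset.sum_congr rfl fun f _ => by ring

/-- **The bound for the four point functions.** -/
theorem Rt.kov4 (h : Rt k y SkS F D H mu B L B2) (hk : k ≠ 0) (hy : 0 ≤ y) (z : Pair n → ℝ)
    {DA : Pair n → Fin n → Fin n → ℝ} (hs : ∀ e i j, DA e i j = DA e j i)
    (hd : ∀ e i, DA e i i = 0) (hp : ∀ e p : Pair n, DA e p.1.1 p.1.2 = H e p z / k) :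
    k ^ 2 * y ^ 2 / 2 * ∑ i, ∑ j, ∑ p, ∑ q,
      (∑ σ, mu z σ * (pr i j σ * pr p q σ) -
        (∑ σ, mu z σ * pr i j σ) * ∑ σ, mu z σ * pr p q σ) ^ 2 ≤
    ∑ e : Pair n, ∑ i, ∑ j, DA e i j ^ 2 := by
  set A : Fin n → Fin n → ℝ := fun i j => ∑ σ, mu z σ * pr i j σ with hA
  set T : Fin n → Fin n → Fin n → Fin n → ℝ := fun i j p q =>
    ∑ σ, mu z σ * (pr i j σ * pr p q σ) with hT
  have a1 : ∀ i j, A i j = A j i := fun i j => by simp only [hA]; rw [pr_comm i j]
  have a2 : ∀ i, A i i = 1 := fun i => by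
    simp only [hA]
    rw [pr_self i]
    simp only [mul_one]
    exact h.m1 z
  have t1 : ∀ i j p q, T i j p q = T j i p q := fun i j p q => by
    simp only [hT]; rw [pr_comm i j]
  have t2 : ∀ i j p q, T i j p q = T i j q p := fun i j p q => by
    simp only [hT]; rw [pr_comm p q]
  have t3 : ∀ i p q, T i i p q = A p q := fun i p q => by
    simp only [hT, hA]; rw [pr_self i]; simp only [one_mul]
  have t4 : ∀ i j p, T i j p p = A i j := fun i j p => by
    simp only [hT, hA]; rw [pr_self p]; simp only [mul_one]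
  -- reduction to pairs
  have g1 : ∀ i j, ∑ p, ∑ q, (T i j p q - A i j * A p q) ^ 2 =
      2 * ∑ e : Pair n, (T i j e.1.1 e.1.2 - A i j * A e.1.1 e.1.2) ^ 2 := fun i j =>
    sum_pairs (fun p q => (T i j p q - A i j * A p q) ^ 2)
      (fun p q => by rw [t2 i j p q, a1 p q])
      (fun p => by rw [t4, a2]; ring)
  have g2 : ∑ i, ∑ j, ∑ p, ∑ q, (T i j p q - A i j * A p q) ^ 2 =
      4 * ∑ e : Pair n, ∑ i : Pair n,
        (T e.1.1 e.1.2 i.1.1 i.1.2 - A e.1.1 e.1.2 * A i.1.1 i.1.2) ^ 2 := by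
    simp only [g1]
    have h2 := sum_pairs (fun i j => 2 * ∑ e : Pair n,
        (T i j e.1.1 e.1.2 - A i j * A e.1.1 e.1.2) ^ 2)
      (fun i j => by
        congr 1
        exact Finset.sum_congr rfl fun e _ => by rw [t1 i j, a1 i j])
      (fun i => by
        refine mul_eq_zero_of_right _ (Finset.sum_eq_zero fun e _ => ?_)
        rw [t3, a2]
        ring)
    rw [h2, ← Finset.mul_sum]
    ring
  have g3 : ∑ e : Pair n, ∑ i, ∑ j, DA e i j ^ 2 = 2 / k ^ 2 * ∑ e, ∑ f, H e f z ^ 2 := by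
    rw [Finset.mul_sum]
    refine Finset.sum_congr rfl fun e _ => ?_
    have h2 := sum_pairs (fun i j => DA e i j ^ 2) (fun i j => by rw [hs e i j])
      (fun i => by rw [hd]; ring)
    rw [h2]
    simp only [hp, div_pow]
    rw [← Finset.sum_div]
    ring
  -- comparison of the two forms
  have key := psd_sq_mono (q := Pair n)
    (A := fun e f => y * k ^ 2 * (T e.1.1 e.1.2 f.1.1 f.1.2 - A e.1.1 e.1.2 * A f.1.1 f.1.2))
    (B := fun e f => H e f z)
    (fun e f => by
      have : T e.1.1 e.1.2 f.1.1 f.1.2 = T f.1.1 f.1.2 e.1.1 e.1.2 := by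
        simp only [hT]
        exact Finset.sum_congr rfl fun σ _ => by ring
      rw [this]
      ring)
    (fun v => ?_) (fun e f => h.c2.sym e f z) (fun v => ?_)
  · rw [g2, g3]
    have hk2 : 0 < k ^ 2 := by positivity
    have e1 : ∑ e : Pair n, ∑ f : Pair n, (y * k ^ 2 *
        (T e.1.1 e.1.2 f.1.1 f.1.2 - A e.1.1 e.1.2 * A f.1.1 f.1.2)) ^ 2 =
        y ^ 2 * (k ^ 2) ^ 2 * ∑ e : Pair n, ∑ i : Pair n,
        (T e.1.1 e.1.2 i.1.1 i.1.2 - A e.1.1 e.1.2 * A i.1.1 i.1.2) ^ 2 := by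
      simp only [Finset.mul_sum]
      exact Finset.sum_congr rfl fun e _ => Finset.sum_congr rfl fun f _ => by ring
    rw [e1] at key
    have h3 := mul_le_mul_of_nonneg_left key (show (0 : ℝ) ≤ 2 / k ^ 2 by positivity)
    refine le_trans (le_of_eq ?_) h3
    field_simp
    ring
  all_goals
    have e1 : ∑ e : Pair n, ∑ f : Pair n, v e * (y * k ^ 2 *
        (T e.1.1 e.1.2 f.1.1 f.1.2 - A e.1.1 e.1.2 * A f.1.1 f.1.2)) * v f =
        y * (k ^ 2 * ∑ σ, mu z σ * (∑ e, SkS e σ * v e) ^ 2 - (∑ e, D e z * v e) ^ 2) := by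
      have e2 : ∑ σ, mu z σ * (∑ e : Pair n, SkS e σ * v e) ^ 2 =
          ∑ e : Pair n, ∑ f : Pair n, v e * T e.1.1 e.1.2 f.1.1 f.1.2 * v f := by
        simp only [hT, Finset.mul_sum, Finset.sum_mul, sq]
        rw [Finset.sum_comm]
        refine Finset.sum_congr rfl fun e _ => ?_
        rw [Finset.sum_comm]
        refine Finset.sum_congr rfl fun f _ => Finset.sum_congr rfl fun σ _ => ?_
        unfold SkS pr
        ring
      have e3 : (∑ e : Pair n, D e z * v e) ^ 2 =
          k ^ 2 * ∑ e : Pair n, ∑ f : Pair n, v e * (A e.1.1 e.1.2 * A f.1.1 f.1.2) * v f := by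
        have e4 : ∀ e : Pair n, D e z = k * A e.1.1 e.1.2 := fun e => by
          rw [h.dm]
          rfl
        simp only [e4]
        exact quad_id k (fun e : Pair n => A e.1.1 e.1.2) v
      rw [e2, e3, ← mul_sub, ← Finset.sum_sub_distrib, ← mul_assoc, Finset.mul_sum]
      refine Finset.sum_congr rfl fun e _ => ?_
      rw [← Finset.sum_sub_distrib, Finset.mul_sum]
      exact Finset.sum_congr rfl fun f _ => by ring
    first
    | (rw [e1]; exact mul_nonneg hy (h.var_nonneg z v))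
    | (rw [e1]
       refine (h.kov z v).trans (le_of_eq ?_)
       exact Finset.sum_congr rfl fun e _ => Finset.sum_congr rfl fun f _ => by ring)

end pairs

end Vale.Agent.P146.H941
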