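import Vale.Agent.P146.H941.F01
import Vale.Agent.P146.H130.GTwo

/-!
Plan R2, row R6: the row (F01) for the law `(0 | y | x)` (two layers), flat form.
-/

open MeasureTheory ProbabilityTheory Finset Matrix

namespace Vale.Agent.P146.H941

open Vale.Agent.P157.Lv Vale.Agent.P146.H425 Vale.Agent.P146.H325 Vale.Agent.P146.H332
  Vale.Agent.P146.H712 Vale.Agent.P146.R1 Vale.Agent.P146.R1C Vale.Agent.P146.H706
  Vale.Agent.P146.R1S Vale.Agent.P146.H191
open Vale.Agent.P146.H785 (Ax)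

set_option linter.unusedSectionVars false

section gen

variable {κ : Type} [Fintype κ] [DecidableEq κ] {F : (κ → ℝ) → ℝ} {D : κ → (κ → ℝ) → ℝ}
  {B L : ℝ} {q : Par} {G : GD κ}

/-- the density with a general base -/
lemma den_densG (h : C11 F D B L) (hx : 0 < q.x) (hG : G.Ok) :
    Den (densG q G F) (psiG' q G F D) where
  eg := eg_densG h hx hG
  pd j := (pd_psiG h hx hG j).exp
  eg' j := eg_psiG' h hx hG j

lemma Im_densG (f : (K4 κ → ℝ) → ℝ) : Im (densG q G F) f = EwG q G F f := rfl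

/-- the drift of the position at the time `s2`, general base -/
lemma dr_psiG (hq : q.OkS) (e : κ) (w : K4 κ → ℝ) :
    dr (k3 q) (psiG' q G F D) e w = q.x * (q.s2 * dd q.x q.s2 F D e (P3 q w)) +
      (q.t0 * G.d0 e (P0 q w) (P1 q w) + q.t1 * G.d1 e (P0 q w) (P1 q w)) := by
  have a0 : √q.t0 ^ 2 = q.t0 := Real.sq_sqrt hq.h0
  have a1 : √(q.t1 - q.t0) ^ 2 = q.t1 - q.t0 := Real.sq_sqrt (sub_nonneg.2 hq.h01)
  have a2 : √(q.s1 - q.t1) ^ 2 = q.s1 - q.t1 := Real.sq_sqrt (sub_nonneg.2 hq.h1)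
  have a3 : √(q.s2 - q.s1) ^ 2 = q.s2 - q.s1 := Real.sq_sqrt (sub_nonneg.2 hq.h12)
  simp only [dr, psiG', bs, bl, k3, k1, k0, H712.q3, H712.q1, H712.q0, Matrix.cons_val]
  set r0 := √q.t0
  set r1 := √(q.t1 - q.t0)
  set r2 := √(q.s1 - q.t1)
  set r3 := √(q.s2 - q.s1)
  have s3 : q.s2 = r0 ^ 2 + r1 ^ 2 + r2 ^ 2 + r3 ^ 2 := by rw [a0, a1, a2, a3]; ring
  have s1' : q.t1 = r0 ^ 2 + r1 ^ 2 := by rw [a0, a1]; ring
  have g3 : ∀ X : ℝ, q.s2 * X = (r0 ^ 2 + r1 ^ 2 + r2 ^ 2 + r3 ^ 2) * X := fun X => by rw [← s3]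
  have g1 : ∀ X : ℝ, q.t1 * X = (r0 ^ 2 + r1 ^ 2) * X := fun X => by rw [← s1']
  have g0 : ∀ X : ℝ, q.t0 * X = r0 ^ 2 * X := fun X => by rw [a0]
  rw [g3 (dd q.x q.s2 F D e (P3 q w)), g1, g0]
  ring

end gen

variable {n : ℕ} {k : ℝ} {q : Par} (S : CS n k q.x) (y h : ℝ)

/-- The matrix `C` at the time `t1 - h`: one layer with the exponent `y` below the time `t1`. -/
noncomputable def Cy (z : Pair n → ℝ) (i j : Fin n) : ℝ :=
  Ax y (√h) (uu q.x q.t1 S.F) (fun u => S.A q.t1 u i j) z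

/-- Its mean over the bridge. -/
noncomputable def Cb (w : K4 (Pair n) → ℝ) (i j : Fin n) : ℝ :=
  Br q y h S.F (fun z => Cy S y h z i j) (P0 q w) (P1 q w)

/-- The base matrix of the drift. -/
noncomputable def Bt (w : K4 (Pair n) → ℝ) (i j : Fin n) : ℝ :=
  (q.x - y) * q.t1 * S.A q.t1 (P1 q w) i j + y * (q.t1 - h) * Cb S y h w i j

lemma Bt_comm (w : K4 (Pair n) → ℝ) (i j : Fin n) : Bt S y h w i j = Bt S y h w j i := by
  unfold Bt Cb Cy
  simp only [S.A_comm q.t1 _ i j]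

lemma DV2_eq (e : Pair n) (z : Pair n → ℝ) :
    DV2 q y h S.F S.D e z = k * Cy S y h z e.1.1 e.1.2 := by
  unfold DV2 Cy
  rw [DW_eq_Ax]
  have e1 : dd q.x q.t1 S.F S.D e = fun u => k * S.A q.t1 u e.1.1 e.1.2 :=
    funext fun u => S.dd_eq q.t1 e u
  rw [e1]
  exact H785.Ax_const_mul k (fun u => S.A q.t1 u e.1.1 e.1.2) y (√h) z

variable {S y h}

/-- the drift of the two-layer law -/
lemma dr_two (hq : q.OkS) (hT : Two q y h) (e : Pair n) (w : K4 (Pair n) → ℝ) :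
    dr (k3 q) (psiG' q (GTwo q y h S.F S.D) S.F S.D) e w =
      k * (q.x * q.s2 * S.A q.s2 (H712.lp (k3 q) w) e.1.1 e.1.2 - Bt S y h w e.1.1 e.1.2) := by
  rw [dr_psiG hq, GTwo_d0, GTwo_d1, S.dd_eq, S.dd_eq]
  have e1 : Br q y h S.F (DV2 q y h S.F S.D e) (P0 q w) (P1 q w) =
      k * Cb S y h w e.1.1 e.1.2 := by
    unfold Cb
    rw [show DV2 q y h S.F S.D e = fun z => k * Cy S y h z e.1.1 e.1.2 from
      funext fun z => DV2_eq S y h e z]
    unfold Br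
    exact H785.Ax_const_mul k _ y _ _
  have e2 : q.t0 * R1C.ca q h + q.t1 * R1C.cb q h = q.t1 - h := by
    have : q.t1 - q.t0 ≠ 0 := by linarith [hT.h1]
    unfold R1C.ca R1C.cb
    field_simp
    ring
  rw [e1, P3_lp]
  unfold Bt
  linear_combination (-(y * (k * Cb S y h w e.1.1 e.1.2))) * e2

/-! ### bounds and symmetries of the base matrix -/

lemma lipV (hx : 0 < q.x) (hy : 0 < y) : ∃ B, 0 ≤ B ∧ LipB (uu q.x q.t1 S.F) B ∧
    LipB (fun z => -1 * V2 q y h S.F z) B := by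
  have h1 := c11_uu S.c11 hx q.t1
  obtain ⟨L', hV⟩ := c11_V2 (q := q) S.c11 hx hy h
  refine ⟨S.bB, S.c11.B0, h1.lip, ?_⟩
  have h2 := (c11_const_mul hV (-1)).lip
  intro a b
  refine (h2 a b).trans (le_of_eq ?_)
  rw [abs_neg, abs_one, one_mul]

lemma abs_Cy (hx : 0 < q.x) (z : Pair n → ℝ) (i j : Fin n) : |Cy S y h z i j| ≤ 1 :=
  H785.Ax_abs_le (c11_uu S.c11 hx q.t1).lip S.c11.B0 (S.eg_A q.t1 i j).meas
    (fun u => S.abs_A q.t1 u i j) y (√h) z

lemma meas_Cy (hx : 0 < q.x) (i j : Fin n) : Measurable fun z => Cy S y h z i j :=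
  H785.Ax_meas (c11_uu S.c11 hx q.t1).lip S.c11.B0 (S.eg_A q.t1 i j) y (√h)

lemma Cy_self (hx : 0 < q.x) (z : Pair n → ℝ) (i : Fin n) : Cy S y h z i i = 1 := by
  unfold Cy
  simp only [S.A_self]
  exact H785.Ax_const (c11_uu S.c11 hx q.t1).lip S.c11.B0 1 y (√h) z

lemma abs_Cb (hx : 0 < q.x) (hy : 0 < y) (w : K4 (Pair n) → ℝ) (i j : Fin n) :
    |Cb S y h w i j| ≤ 1 := by
  obtain ⟨B, hB, -, hl⟩ := lipV (S := S) (h := h) hx hy
  exact H785.Ax_abs_le hl hB (meas_Cy hx i j) (fun u => abs_Cy hx u i j) y _ _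

lemma Cb_self (hx : 0 < q.x) (hy : 0 < y) (w : K4 (Pair n) → ℝ) (i : Fin n) :
    Cb S y h w i i = 1 := by
  obtain ⟨B, hB, -, hl⟩ := lipV (S := S) (h := h) hx hy
  unfold Cb Br
  simp only [Cy_self hx]
  exact H785.Ax_const hl hB 1 y _ _

lemma meas_lp (c : Fin 4 → ℝ) : Measurable (H712.lp (κ := Pair n) c) :=
  (continuous_lp c).measurable

lemma eg_Cb (hx : 0 < q.x) (hy : 0 < y) (i j : Fin n) : EG fun w => Cb S y h w i j := by
  obtain ⟨B, hB, -, hl⟩ := lipV (S := S) (h := h) hx hy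
  have hm : Measurable fun w : K4 (Pair n) → ℝ => mb q h (P0 q w) (P1 q w) := by
    have h0 : (fun w : K4 (Pair n) → ℝ => P0 q w) = fun w => H712.lp (k0 q) w :=
      funext fun w => P0_lp w
    have h1 : (fun w : K4 (Pair n) → ℝ => P1 q w) = fun w => H712.lp (k1 q) w :=
      funext fun w => P1_lp w
    have m0 : Measurable fun w : K4 (Pair n) → ℝ => P0 q w := by rw [h0]; exact meas_lp _
    have m1 : Measurable fun w : K4 (Pair n) → ℝ => P1 q w := by rw [h1]; exact meas_lp _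
    unfold mb
    exact (m0.const_smul (R1C.ca q h)).add (m1.const_smul (R1C.cb q h))
  have hm2 : Measurable fun w => Cb S y h w i j := by
    unfold Cb Br
    exact (H785.Ax_meas hl hB (EG.of_bdd (meas_Cy hx i j) fun u => abs_Cy hx u i j) y
      (R1C.cc q h)).comp hm
  exact EG.of_bdd hm2 fun w => abs_Cb hx hy w i j

lemma eg_Bt (hx : 0 < q.x) (hy : 0 < y) (i j : Fin n) : EG fun w => Bt S y h w i j :=
  ((eg_P1 (S.eg_A q.t1 i j)).const_mul _).add ((eg_Cb hx hy i j).const_mul _)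

/-- the off-diagonal part of the base matrix -/
lemma od_Bt (hx : 0 < q.x) (hy : 0 < y) (w : K4 (Pair n) → ℝ) :
    od (Bt S y h w) = ((q.x - y) * q.t1) • (S.A q.t1 (P1 q w)) +
      (y * (q.t1 - h)) • mx (Cb S y h w) - ((q.x - y) * q.t1 + y * (q.t1 - h)) • 1 := by
  ext i j
  rw [Matrix.sub_apply, Matrix.add_apply, Matrix.smul_apply, Matrix.smul_apply,
    Matrix.smul_apply, mx_apply]
  simp only [smul_eq_mul]
  unfold od
  by_cases hij : i = j
  · subst hij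
    rw [if_pos rfl, Matrix.one_apply_eq, S.A_self, Cb_self hx hy]
    ring
  · rw [if_neg hij, Matrix.one_apply_ne hij]
    unfold Bt
    ring

/-- **(F1) for the two-layer law**, as an inequality of numbers. -/
theorem f1G (hq : q.OkS) (hT : Two q y h) (hx : 0 < q.x) (hs : 0 < q.s2) {l η : ℝ}
    (hl : k ^ 2 * l ^ 2 * n = 1) (hl0 : 0 ≤ l) (hη : 0 < η) {Y : MF n}
    {Y' L' : Fin n → MF n} (hY : ∀ i l, EG fun w => Y w i l)
    (hYp : ∀ w, (mx (Y w)).PosSemidef)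
    (hY' : ∀ b, Frz b (Y' b)) (hL' : ∀ b, Frz b (L' b)) (hLb : ∀ b w i, L' b w i b = 0)
    (hYp' : ∀ b w, ∀ v : Fin n → ℝ, 0 ≤ ∑ i, ∑ l, Y' b w i l * (v i * v l)) :
    (1 + q.s2) * EwG q (GTwo q y h S.F S.D) S.F (fun w => (mx (Y w) *
        (S.A q.s2 (P3 q w) * S.A q.s2 (P3 q w))).trace) -
      2 * (k ^ 2 * l * q.s2) * EwG q (GTwo q y h S.F S.D) S.F (fun w => ∑ b, (mx (Y w) *
        (S.A q.s2 (P3 q w) * S.H q.s2 b (P3 q w))).trace) -
      k ^ 2 * l * (q.x * q.s2 * EwG q (GTwo q y h S.F S.D) S.F (fun w => (mx (Y w) *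
        (S.A q.s2 (P3 q w) * (S.A q.s2 (P3 q w) * S.A q.s2 (P3 q w)))).trace) -
        ((q.x - y) * q.t1 * EwG q (GTwo q y h S.F S.D) S.F (fun w => (mx (Y w) *
          (S.A q.s2 (P3 q w) * (S.A q.t1 (P1 q w) * S.A q.s2 (P3 q w)))).trace) +
        y * (q.t1 - h) * EwG q (GTwo q y h S.F S.D) S.F (fun w => (mx (Y w) *
          (S.A q.s2 (P3 q w) * (mx (Cb S y h w) * S.A q.s2 (P3 q w)))).trace) -
        ((q.x - y) * q.t1 + y * (q.t1 - h)) * EwG q (GTwo q y h S.F S.D) S.F (fun w =>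
          (mx (Y w) * (S.A q.s2 (P3 q w) * S.A q.s2 (P3 q w))).trace))) ≤
      (1 + η / 2) * ∑ b, EwG q (GTwo q y h S.F S.D) S.F
          (nl k S q.s2 (k3 q) b (Y' b) (L' b)) +
        1 / (2 * η) * ∑ b, EwG q (GTwo q y h S.F S.D) S.F
          (vrow k (k3 q) (psiG' q (GTwo q y h S.F S.D) S.F S.D) b (Y' b) (L' b)) +
        EwG q (GTwo q y h S.F S.D) S.F (dgE S q.s2 (k3 q) l (q.x * q.s2) Y (Bt S y h)) +
        EwG q (GTwo q y h S.F S.D) S.F (fun w => ∑ b, erow S q.s2 (k3 q)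
          (psiG' q (GTwo q y h S.F S.D) S.F S.D) b Y
          (fun w i j => l * S.A q.s2 (H712.lp (k3 q) w) i j) (Y' b) (L' b) w) := by
  have hy := hT.y0
  have hG : (GTwo q y h S.F S.D).Ok := GTwo_ok S.c11 hx hy h
  have hD := den_densG (q := q) S.c11 hx hG
  have key := f1_num (S := S) (s := q.s2) (a := k3 q) (xt := q.x * q.s2) (B := Bt S y h) hs hD
    (fun w => densG_nonneg w) hl hl0 (mul_nonneg hx.le hs.le) hη hY (fun i j => eg_Bt hx hy i j)
    hYp (Bt_comm S y h) (dr_two hq hT) hY' hL' hLb hYp'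
  have eC : ∀ i j, EG fun w : K4 (Pair n) → ℝ => S.A q.s2 (P3 q w) i j := fun i j =>
    eg_P3 (S.eg_A q.s2 i j)
  have eW : ∀ i j, EG fun w : K4 (Pair n) → ℝ => S.A q.t1 (P1 q w) i j := fun i j =>
    eg_P1 (S.eg_A q.t1 i j)
  have eB : ∀ i j, EG fun w : K4 (Pair n) → ℝ => mx (Cb S y h w) i j := fun i j =>
    eg_Cb hx hy i j
  have eY : ∀ i j, EG fun w : K4 (Pair n) → ℝ => mx (Y w) i j := hY
  have g1 : EG fun w => (mx (Y w) * (S.A q.s2 (P3 q w) * S.A q.s2 (P3 q w))).trace :=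
    eg_tr (eg_mulm eY (eg_mulm eC eC))
  have g2 : EG fun w => (mx (Y w) * (S.A q.s2 (P3 q w) * (S.A q.t1 (P1 q w) *
      S.A q.s2 (P3 q w)))).trace := eg_tr (eg_mulm eY (eg_mulm eC (eg_mulm eW eC)))
  have g3 : EG fun w => (mx (Y w) * (S.A q.s2 (P3 q w) * (mx (Cb S y h w) *
      S.A q.s2 (P3 q w)))).trace := eg_tr (eg_mulm eY (eg_mulm eC (eg_mulm eB eC)))
  have eK : EwG q (GTwo q y h S.F S.D) S.F (fun w => (mx (Y w) * (Cm S q.s2 (k3 q) w *
      (od (Bt S y h w) * Cm S q.s2 (k3 q) w))).trace) =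
      (q.x - y) * q.t1 * EwG q (GTwo q y h S.F S.D) S.F (fun w => (mx (Y w) *
          (S.A q.s2 (P3 q w) * (S.A q.t1 (P1 q w) * S.A q.s2 (P3 q w)))).trace) +
        y * (q.t1 - h) * EwG q (GTwo q y h S.F S.D) S.F (fun w => (mx (Y w) *
          (S.A q.s2 (P3 q w) * (mx (Cb S y h w) * S.A q.s2 (P3 q w)))).trace) -
        ((q.x - y) * q.t1 + y * (q.t1 - h)) * EwG q (GTwo q y h S.F S.D) S.F (fun w =>
          (mx (Y w) * (S.A q.s2 (P3 q w) * S.A q.s2 (P3 q w))).trace) := by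
    have hE := hD.eg
    change Im _ _ = _ * Im _ _ + _ * Im _ _ - _ * Im _ _
    rw [← Im_const_mul, ← Im_const_mul, ← Im_const_mul,
      ← Im_add hE (g2.const_mul _) (g3.const_mul _),
      ← Im_sub hE ((g2.const_mul _).add (g3.const_mul _)) (g1.const_mul _)]
    refine Im_congr fun w => ?_
    have e1 : Cm S q.s2 (k3 q) w = S.A q.s2 (P3 q w) := by
      unfold Cm
      rw [P3_lp]
    rw [e1, od_Bt hx hy]
    simp only [Matrix.mul_add, Matrix.add_mul, Matrix.mul_sub, Matrix.sub_mul, Matrix.mul_smul,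
      Matrix.smul_mul, Matrix.one_mul, Matrix.trace_add, Matrix.trace_sub, Matrix.trace_smul,
      smul_eq_mul]
  rw [vr_k3 hq] at key
  simp only [Im_densG] at key
  rw [eK] at key
  unfold Cm at key
  simp only [← P3_lp] at key
  convert key using 9
  all_goals try rfl
  all_goals simp only [← P3_lp]

end Vale.Agent.P146.H941
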