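import Mathlib

set_option linter.all false

/-!
R6, deterministic part: the polynomial Cauchy-Schwarz for three positive semidefinite matrices and
the algebra of F0 + F1 + F2. No alignment, no rank one.
-/

open MeasureTheory Matrix

namespace Vale.Agent.P146.H941

variable {m : Type} [Fintype m] [DecidableEq m]

open scoped MatrixOrder Matrix.Norms.L2Operator in
/-- A positive semidefinite matrix is a square. -/
theorem psd_sq {A : Matrix m m ℝ} (hA : A.PosSemidef) : ∃ R : Matrix m m ℝ, A = Rᴴ * R := by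
  obtain ⟨B, hB⟩ := CStarAlgebra.nonneg_iff_eq_star_mul_self.mp
    (Matrix.nonneg_iff_posSemidef.2 hA)
  exact ⟨B, hB⟩

/-- The trace of a product of two positive semidefinite matrices is nonnegative. -/
theorem tr_mul_nonneg {A B : Matrix m m ℝ} (hA : A.PosSemidef) (hB : B.PosSemidef) :
    0 ≤ (A * B).trace := by
  obtain ⟨R, hR⟩ := psd_sq hA
  rw [hR, Matrix.mul_assoc, Matrix.trace_mul_comm]
  have h := hB.mul_mul_conjTranspose_same R
  exact h.trace_nonneg

/-- `tr (Y (C - s D) C (C - s D)) ≥ 0`, expanded. -/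
theorem tr_quad {Y C D : Matrix m m ℝ} (hY : Y.PosSemidef) (hC : C.PosSemidef)
    (hD : D.PosSemidef) (s : ℝ) :
    0 ≤ (Y * (C * C * C)).trace - 2 * s * (Y * (C * C * D)).trace +
      s ^ 2 * (Y * (D * C * D)).trace := by
  have hYt : Yᵀ = Y := by have := hY.1; rwa [Matrix.IsHermitian, Matrix.conjTranspose_eq_transpose_of_trivial] at this
  have hCt : Cᵀ = C := by have := hC.1; rwa [Matrix.IsHermitian, Matrix.conjTranspose_eq_transpose_of_trivial] at this
  have hDt : Dᵀ = D := by have := hD.1; rwa [Matrix.IsHermitian, Matrix.conjTranspose_eq_transpose_of_trivial] at this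
  obtain ⟨E, hE⟩ : ∃ E, E = C - s • D := ⟨_, rfl⟩
  have hEt : Eᴴ = E := by
    rw [Matrix.conjTranspose_eq_transpose_of_trivial, hE, Matrix.transpose_sub,
      Matrix.transpose_smul, hCt, hDt]
  have h1 : (E * C * E).PosSemidef := by
    have := hC.mul_mul_conjTranspose_same E
    rwa [hEt] at this
  have h2 := tr_mul_nonneg hY h1
  have h3 : (Y * (D * C * C)).trace = (Y * (C * C * D)).trace := by
    rw [← Matrix.trace_transpose (Y * (D * C * C))]
    rw [Matrix.transpose_mul, Matrix.transpose_mul, Matrix.transpose_mul, hYt, hCt, hDt,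
      Matrix.trace_mul_comm]
    rw [Matrix.mul_assoc C C D]
  have h4 : E * C * E = C * C * C - s • (C * C * D) - s • (D * C * C) +
      (s ^ 2) • (D * C * D) := by
    rw [hE]
    simp only [Matrix.sub_mul, Matrix.mul_sub, Matrix.smul_mul, Matrix.mul_smul, smul_sub,
      smul_smul, sq]
    abel
  rw [h4] at h2
  simp only [Matrix.mul_add, Matrix.mul_sub, Matrix.mul_smul, Matrix.trace_add, Matrix.trace_sub,
    Matrix.trace_smul, smul_eq_mul] at h2
  rw [h3] at h2
  linarith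

/-- A nonnegative quadratic function. -/
theorem disc_le {a b c : ℝ} (h : ∀ s : ℝ, 0 ≤ a - 2 * s * b + s ^ 2 * c) : b ^ 2 ≤ a * c := by
  have ha : 0 ≤ a := by have := h 0; linarith [this]
  have h1 : ∀ s : ℝ, 0 ≤ c * (s * s) + (-2 * b) * s + a := fun s => by have := h s; nlinarith
  have h2 := discrim_le_zero h1
  unfold discrim at h2
  nlinarith

variable {Ω : Type*} [MeasurableSpace Ω]

/-- Bounded measurable functions on a probability space are integrable. -/
theorem int_bdd {ν : Measure Ω} [IsProbabilityMeasure ν] {f : Ω → ℝ} (hf : Measurable f) {K : ℝ}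
    (hb : ∀ ω, |f ω| ≤ K) : Integrable f ν :=
  (integrable_const K).mono' hf.aestronglyMeasurable (Filter.Eventually.of_forall fun ω => by
    rw [Real.norm_eq_abs]; exact hb ω)

theorem int3 {ν : Measure Ω} {a b e : Ω → ℝ} (ha : Integrable a ν) (hb : Integrable b ν)
    (he : Integrable e ν) (c d : ℝ) :
    ∫ ω, (a ω - c * b ω + d * e ω) ∂ν = (∫ ω, a ω ∂ν) - c * (∫ ω, b ω ∂ν) + d * ∫ ω, e ω ∂ν := by
  have h1 : ∫ ω, (a ω - c * b ω + d * e ω) ∂ν = (∫ ω, (a ω - c * b ω) ∂ν) + ∫ ω, d * e ω ∂ν :=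
    integral_add (ha.sub (hb.const_mul c)) (he.const_mul d)
  have h2 : ∫ ω, (a ω - c * b ω) ∂ν = (∫ ω, a ω ∂ν) - ∫ ω, c * b ω ∂ν :=
    integral_sub ha (hb.const_mul c)
  rw [h1, h2, integral_const_mul, integral_const_mul]

/-- The expansion of the trace of a product of four matrices. -/
theorem tr4 (Y A B D : Matrix m m ℝ) :
    (Y * (A * B * D)).trace = ∑ i, ∑ j, ∑ k, ∑ l, Y i j * A j k * B k l * D l i := by
  simp only [Matrix.trace, Matrix.diag_apply, Matrix.mul_apply, Finset.mul_sum, Finset.sum_mul]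
  refine Finset.sum_congr rfl fun i _ => Finset.sum_congr rfl fun j _ => ?_
  rw [Finset.sum_comm]
  refine Finset.sum_congr rfl fun k _ => Finset.sum_congr rfl fun l _ => ?_
  ring

theorem meas_tr4 {Y : Matrix m m ℝ} {A B D : Ω → Matrix m m ℝ}
    (hA : ∀ i j, Measurable fun ω => A ω i j) (hB : ∀ i j, Measurable fun ω => B ω i j)
    (hD : ∀ i j, Measurable fun ω => D ω i j) :
    Measurable fun ω => (Y * (A ω * B ω * D ω)).trace := by
  simp only [tr4]
  refine Finset.measurable_sum _ fun i _ => Finset.measurable_sum _ fun j _ =>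
    Finset.measurable_sum _ fun k _ => Finset.measurable_sum _ fun l _ => ?_
  exact ((measurable_const.mul (hA j k)).mul (hB k l)).mul (hD l i)

theorem bdd_tr4 {Y A B D : Matrix m m ℝ} {M N : ℝ} (hY : ∀ i j, |Y i j| ≤ N)
    (hA : ∀ i j, |A i j| ≤ M) (hB : ∀ i j, |B i j| ≤ M) (hD : ∀ i j, |D i j| ≤ M) :
    |(Y * (A * B * D)).trace| ≤ (Fintype.card m : ℝ) ^ 4 * (N * M * M * M) := by
  rw [tr4]
  have h1 : ∀ i j k l, |Y i j * A j k * B k l * D l i| ≤ N * M * M * M := by
    intro i j k l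
    rw [abs_mul, abs_mul, abs_mul]
    have hM : 0 ≤ M := (abs_nonneg _).trans (hA i j)
    have hN : 0 ≤ N := (abs_nonneg _).trans (hY i j)
    exact mul_le_mul (mul_le_mul (mul_le_mul (hY i j) (hA j k) (abs_nonneg _) hN) (hB k l)
      (abs_nonneg _) (by positivity)) (hD l i) (abs_nonneg _) (by positivity)
  refine (Finset.abs_sum_le_sum_abs _ _).trans ?_
  have h2 : ∀ i ∈ (Finset.univ : Finset m), |∑ j, ∑ k, ∑ l, Y i j * A j k * B k l * D l i| ≤
      (Fintype.card m : ℝ) ^ 3 * (N * M * M * M) := by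
    intro i _
    refine (Finset.abs_sum_le_sum_abs _ _).trans ?_
    have h3 : ∀ j ∈ (Finset.univ : Finset m), |∑ k, ∑ l, Y i j * A j k * B k l * D l i| ≤
        (Fintype.card m : ℝ) ^ 2 * (N * M * M * M) := by
      intro j _
      refine (Finset.abs_sum_le_sum_abs _ _).trans ?_
      have h4 : ∀ k ∈ (Finset.univ : Finset m), |∑ l, Y i j * A j k * B k l * D l i| ≤
          (Fintype.card m : ℝ) * (N * M * M * M) := by
        intro k _
        refine (Finset.abs_sum_le_sum_abs _ _).trans ?_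
        refine (Finset.sum_le_card_nsmul _ _ _ fun l _ => h1 i j k l).trans (le_of_eq ?_)
        rw [nsmul_eq_mul, Finset.card_univ]
      refine (Finset.sum_le_card_nsmul _ _ _ h4).trans (le_of_eq ?_)
      rw [nsmul_eq_mul, Finset.card_univ]
      ring
    refine (Finset.sum_le_card_nsmul _ _ _ h3).trans (le_of_eq ?_)
    rw [nsmul_eq_mul, Finset.card_univ]
    ring
  refine (Finset.sum_le_card_nsmul _ _ _ h2).trans (le_of_eq ?_)
  rw [nsmul_eq_mul, Finset.card_univ]
  ring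

/-- The mean in the last factor. -/
theorem int_tr4_last {ν : Measure Ω} [IsProbabilityMeasure ν] {C : Ω → Matrix m m ℝ}
    {Y A B Cb : Matrix m m ℝ} (hmeas : ∀ i j, Measurable fun ω => C ω i j) {M : ℝ}
    (hb : ∀ ω i j, |C ω i j| ≤ M) (hCb : ∀ i j, Cb i j = ∫ ω, C ω i j ∂ν) :
    ∫ ω, (Y * (A * B * C ω)).trace ∂ν = (Y * (A * B * Cb)).trace := by
  simp only [tr4]
  have hint : ∀ i j, Integrable (fun ω => C ω i j) ν := fun i j =>
    int_bdd (hmeas i j) fun ω => hb ω i j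
  rw [integral_finsetSum _ fun i _ => integrable_finsetSum _ fun j _ =>
    integrable_finsetSum _ fun k _ => integrable_finsetSum _ fun l _ => (hint l i).const_mul _]
  refine Finset.sum_congr rfl fun i _ => ?_
  rw [integral_finsetSum _ fun j _ =>
    integrable_finsetSum _ fun k _ => integrable_finsetSum _ fun l _ => (hint l i).const_mul _]
  refine Finset.sum_congr rfl fun j _ => ?_
  rw [integral_finsetSum _ fun k _ => integrable_finsetSum _ fun l _ => (hint l i).const_mul _]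
  refine Finset.sum_congr rfl fun k _ => ?_
  rw [integral_finsetSum _ fun l _ => (hint l i).const_mul _]
  refine Finset.sum_congr rfl fun l _ => ?_
  rw [integral_const_mul, hCb]

/-- The mean in the middle factor. -/
theorem int_tr4_mid {ν : Measure Ω} [IsProbabilityMeasure ν] {C : Ω → Matrix m m ℝ}
    {Y A D Cb : Matrix m m ℝ} (hmeas : ∀ i j, Measurable fun ω => C ω i j) {M : ℝ}
    (hb : ∀ ω i j, |C ω i j| ≤ M) (hCb : ∀ i j, Cb i j = ∫ ω, C ω i j ∂ν) :
    ∫ ω, (Y * (A * C ω * D)).trace ∂ν = (Y * (A * Cb * D)).trace := by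
  have e : ∀ X : Matrix m m ℝ, (Y * (A * X * D)).trace = ((D * Y) * (A * 1 * X)).trace := by
    intro X
    rw [Matrix.mul_one, ← Matrix.mul_assoc Y (A * X) D, Matrix.trace_mul_comm,
      Matrix.mul_assoc D Y]
  simp only [e]
  exact int_tr4_last hmeas hb hCb

/-- **The mean Cauchy-Schwarz**: for a probability measure `ν`, bounded psd matrices `C` with mean
`Cb`, and a fixed psd `Y`: `0 ≤ E tr(Y C³) - 2 s E tr(Y C² Cb) + s² E tr(Y C Cb C)`. -/
theorem mean_quad {ν : Measure Ω} [IsProbabilityMeasure ν] {C : Ω → Matrix m m ℝ}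
    {Y Cb : Matrix m m ℝ} (hY : Y.PosSemidef) (hC : ∀ ω, (C ω).PosSemidef)
    (hmeas : ∀ i j, Measurable fun ω => C ω i j) {M : ℝ} (hb : ∀ ω i j, |C ω i j| ≤ M)
    (hCb : ∀ i j, Cb i j = ∫ ω, C ω i j ∂ν) (s : ℝ) :
    0 ≤ (∫ ω, (Y * (C ω * C ω * C ω)).trace ∂ν) - 2 * s * (∫ ω, (Y * (C ω * C ω * Cb)).trace ∂ν) +
      s ^ 2 * ∫ ω, (Y * (C ω * Cb * C ω)).trace ∂ν := by
  obtain ⟨N, hN⟩ : ∃ N : ℝ, ∀ i j, |Y i j| ≤ N := by
    refine ⟨∑ i, ∑ j, |Y i j|, fun i j => ?_⟩
    have h1 : |Y i j| ≤ ∑ j, |Y i j| :=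
      Finset.single_le_sum (f := fun j => |Y i j|) (fun _ _ => abs_nonneg _) (Finset.mem_univ j)
    exact h1.trans (Finset.single_le_sum (f := fun i => ∑ j, |Y i j|)
      (fun _ _ => Finset.sum_nonneg fun _ _ => abs_nonneg _) (Finset.mem_univ i))
  have hCbb : ∀ i j, |Cb i j| ≤ M := by
    intro i j
    rw [hCb]
    have h1 := norm_integral_le_of_norm_le_const (μ := ν) (f := fun ω => C ω i j) (C := M)
      (Filter.Eventually.of_forall fun ω => by rw [Real.norm_eq_abs]; exact hb ω i j)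
    simpa using h1
  -- for a fixed `ω'`, integrate in `ω`
  have i1 : Integrable (fun ω => (Y * (C ω * C ω * C ω)).trace) ν :=
    int_bdd (meas_tr4 hmeas hmeas hmeas) fun ω => bdd_tr4 hN (hb ω) (hb ω) (hb ω)
  have i2 : ∀ D : Matrix m m ℝ, (∀ i j, |D i j| ≤ M) →
      Integrable (fun ω => (Y * (C ω * C ω * D)).trace) ν := fun D hD =>
    int_bdd (meas_tr4 hmeas hmeas fun _ _ => measurable_const) fun ω =>
      bdd_tr4 hN (hb ω) (hb ω) hD
  have i3 : ∀ D : Matrix m m ℝ, (∀ i j, |D i j| ≤ M) →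
      Integrable (fun ω => (Y * (D * C ω * D)).trace) ν := fun D hD =>
    int_bdd (meas_tr4 (fun _ _ => measurable_const) hmeas fun _ _ => measurable_const) fun ω =>
      bdd_tr4 hN hD (hb ω) hD
  have h1 : ∀ ω', 0 ≤ (∫ ω, (Y * (C ω * C ω * C ω)).trace ∂ν) -
      2 * s * (∫ ω, (Y * (C ω * C ω * C ω')).trace ∂ν) +
      s ^ 2 * (Y * (C ω' * Cb * C ω')).trace := by
    intro ω'
    have h2 : 0 ≤ ∫ ω, ((Y * (C ω * C ω * C ω)).trace -
        2 * s * (Y * (C ω * C ω * C ω')).trace + s ^ 2 * (Y * (C ω' * C ω * C ω')).trace) ∂ν :=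
      integral_nonneg fun ω => tr_quad hY (hC ω) (hC ω') s
    rw [int3 i1 (i2 _ (hb ω')) (i3 _ (hb ω')), int_tr4_mid hmeas hb hCb] at h2
    exact h2
  -- integrate in `ω'`
  have j3 : Integrable (fun ω' => (Y * (C ω' * Cb * C ω')).trace) ν :=
    int_bdd (meas_tr4 hmeas (fun _ _ => measurable_const) hmeas) fun ω =>
      bdd_tr4 hN (hb ω) hCbb (hb ω)
  obtain ⟨A, hA⟩ : ∃ A : Matrix m m ℝ, ∀ i j, A i j = ∫ ω, (C ω * C ω) i j ∂ν := ⟨fun i j => _, fun i j => rfl⟩
  have hCC : ∀ ω i j, |(C ω * C ω) i j| ≤ (Fintype.card m : ℝ) * (M * M) := by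
    intro ω i j
    rw [Matrix.mul_apply]
    refine (Finset.abs_sum_le_sum_abs _ _).trans ?_
    have h4 : ∀ k ∈ (Finset.univ : Finset m), |C ω i k * C ω k j| ≤ M * M := by
      intro k _
      rw [abs_mul]
      exact mul_le_mul (hb ω i k) (hb ω k j) (abs_nonneg _) ((abs_nonneg _).trans (hb ω i k))
    refine (Finset.sum_le_card_nsmul _ _ _ h4).trans (le_of_eq ?_)
    rw [nsmul_eq_mul, Finset.card_univ]
  have hmCC : ∀ i j, Measurable fun ω => (C ω * C ω) i j := by
    intro i j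
    simp only [Matrix.mul_apply]
    exact Finset.measurable_sum _ fun k _ => (hmeas i k).mul (hmeas k j)
  have e2 : ∀ D : Matrix m m ℝ, (∫ ω, (Y * (C ω * C ω * D)).trace ∂ν) = (Y * (1 * A * D)).trace := by
    intro D
    have h5 := int_tr4_mid (ν := ν) (C := fun ω => C ω * C ω) (Y := Y) (A := 1) (D := D) hmCC hCC hA
    simp only [Matrix.one_mul] at h5 ⊢
    exact h5
  have j2 : Integrable (fun ω' => ∫ ω, (Y * (C ω * C ω * C ω')).trace ∂ν) ν := by
    simp only [e2]
    refine int_bdd (K := (Fintype.card m : ℝ) ^ 4 * (N * (∑ i, ∑ j, |(1 : Matrix m m ℝ) i j| + ∑ i, ∑ j, |A i j| + |M|) *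
      (∑ i, ∑ j, |(1 : Matrix m m ℝ) i j| + ∑ i, ∑ j, |A i j| + |M|) * (∑ i, ∑ j, |(1 : Matrix m m ℝ) i j| + ∑ i, ∑ j, |A i j| + |M|)))
      (meas_tr4 (fun _ _ => measurable_const) (fun _ _ => measurable_const) hmeas) fun ω => ?_
    have hs : ∀ (X : Matrix m m ℝ) i j, |X i j| ≤ ∑ i, ∑ j, |X i j| := by
      intro X i j
      have h1 : |X i j| ≤ ∑ j, |X i j| :=
        Finset.single_le_sum (f := fun j => |X i j|) (fun _ _ => abs_nonneg _) (Finset.mem_univ j)
      exact h1.trans (Finset.single_le_sum (f := fun i => ∑ j, |X i j|)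
        (fun _ _ => Finset.sum_nonneg fun _ _ => abs_nonneg _) (Finset.mem_univ i))
    have p1 : 0 ≤ ∑ i, ∑ j, |(1 : Matrix m m ℝ) i j| :=
      Finset.sum_nonneg fun _ _ => Finset.sum_nonneg fun _ _ => abs_nonneg _
    have p2 : 0 ≤ ∑ i, ∑ j, |A i j| :=
      Finset.sum_nonneg fun _ _ => Finset.sum_nonneg fun _ _ => abs_nonneg _
    have p3 := abs_nonneg M
    refine bdd_tr4 hN (fun i j => (hs 1 i j).trans (by linarith))
      (fun i j => (hs A i j).trans (by linarith)) fun i j => ?_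
    exact ((hb ω i j).trans (le_abs_self M)).trans (by linarith)
  have h3 : 0 ≤ ∫ ω', ((∫ ω, (Y * (C ω * C ω * C ω)).trace ∂ν) -
      2 * s * (∫ ω, (Y * (C ω * C ω * C ω')).trace ∂ν) +
      s ^ 2 * (Y * (C ω' * Cb * C ω')).trace) ∂ν := integral_nonneg h1
  rw [int3 (integrable_const _) j2 j3, integral_const] at h3
  have h6 : ∫ ω', (∫ ω, (Y * (C ω * C ω * C ω')).trace ∂ν) ∂ν =
      ∫ ω, (Y * (C ω * C ω * Cb)).trace ∂ν := by
    simp only [e2]
    exact int_tr4_last hmeas hb hCb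
  rw [h6] at h3
  simpa using h3

/-- The scalar algebra of F0 + F1 + F2: `a = E tr(Y C³)`, `j = E tr(Y C² B)`, `k = E tr(Y C B C)`. -/
theorem r6_alg {A a j k NL bx T0 T1 e0 e1 e2 X : ℝ} (hbx : 0 ≤ bx)
    (hF0 : X ≤ (1 + T0) * A + bx * j + e0)
    (hF1 : 2 * A + bx * (a + k) ≤ NL + 2 * X + T1 * A + e1)
    (hF2 : 2 * NL ≤ bx * (a - k) + e2) :
    bx * (a - 2 * j + k) ≤ NL + (2 * T0 + T1) * A + 2 * e0 + e1 ∧
      bx * (a + 3 * k) ≤ 4 * (bx * j) + 2 * ((2 * T0 + T1) * A + 2 * e0 + e1) + e2 := by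
  constructor
  · linarith
  · linarith

end Vale.Agent.P146.H941
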